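import Vale.Agent.P211.Main

/-! P211 E/Defs (owner helper99, no task): extremal directions of the two Weyl matrices. -/

namespace Vale.Agent.P211

noncomputable section

/-- The quadratic form of a matrix. -/
def qf (A : M3) (a : Fin 3 → ℝ) : ℝ := ∑ i, ∑ j, a i * a j * A i j

/-- Unit vectors. -/
def Un (a : Fin 3 → ℝ) : Prop := ∑ i, a i ^ 2 = 1

/-- `α` is a unit vector extremal for `A` (least value for `s = 1`, greatest for `s = -1`). -/
structure Xt (s : ℝ) (A : M3) (α : Fin 3 → ℝ) : Prop where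
  un : Un α
  le : ∀ a, Un a → s * qf A α ≤ s * qf A a

/-- The part of `D m α` orthogonal to `α`, squared and summed. -/
def rr (D : Fin 4 → M3) (α : Fin 3 → ℝ) : ℝ :=
  ∑ m, ∑ i, (∑ j, D m i j * α j - qf (D m) α * α i) ^ 2

/-- The extremal values add up to the constant `k`. -/
structure Ext {O : Type*} (μ s k : ℝ) (A : Bool → O → M3) (α : Bool → O → Fin 3 → ℝ) : Prop where
  sk : (s = 1 ∧ -(2 * μ) ≤ k) ∨ (s = -1 ∧ k ≤ 4 * μ)
  xt : ∀ ε o, Xt s (A ε o) (α ε o)
  eq : ∀ o, qf (A true o) (α true o) + qf (A false o) (α false o) = k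

theorem Ext.hs {O : Type*} {μ s k : ℝ} {A : Bool → O → M3} {α : Bool → O → Fin 3 → ℝ}
    (h : Ext μ s k A α) : s = 1 ∨ s = -1 := h.sk.imp And.left And.left

end

end Vale.Agent.P211
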