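import Vale.Agent.P211.E.Defs

/-! P211 E/Div (TASK, owner helper99). Helper names end with `_Div`.
Put `q m = qf (D m) α`, `r m j = ∑ i, D m j i * α i - q m * α j`. Contract `Dv` with `α i` (symmetry of `D m`): `∑ m, (∑ j, α j * eta s j n m) * q m = -∑ j, ∑ m, eta s j n m * r m j` for each `n`.
The left side has square sum `∑ q m ^ 2` (`iso_Diag` of P211/Diag); each of the three vectors `n ↦ ∑ m, eta s j n m * r m j` has square sum `∑ m, r m j ^ 2`; `(x + y + z) ^ 2 ≤ 3 (x ^ 2 + y ^ 2 + z ^ 2)`. -/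

namespace Vale.Agent.P211

open Filter Topology Set

noncomputable section

variable {μ s : ℝ} {A : M3} {D : Fin 4 → M3} {α : Fin 3 → ℝ}

theorem iso_Div (hs : s = 1 ∨ s = -1) (j : Fin 3) (x : Fin 4 → ℝ) :
    ∑ n, (∑ m, eta s j n m * x m) ^ 2 = ∑ m, x m ^ 2 := by
  have h := iso_Diag hs (α := Pi.single j 1) (by simp [Pi.single_apply]) x
  simpa [Pi.single_apply] using h

theorem div_le (hD : ∀ m, ST (D m)) (hs : s = 1 ∨ s = -1) (h : Dv s D) (hα : Un α) :
    ∑ m, qf (D m) α ^ 2 ≤ 3 * rr D α := by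
  set r : Fin 3 → Fin 4 → ℝ := fun j m => ∑ i, D m j i * α i - qf (D m) α * α j with hr
  have h1 : ∀ n, ∑ m, (∑ j, α j * eta s j n m) * qf (D m) α =
      -∑ j, ∑ m, eta s j n m * r j m := fun n => by
    have a0 := h 0 n
    have a1 := h 1 n
    have a2 := h 2 n
    simp only [hr, Fin.sum_univ_three, Fin.sum_univ_four, (hD _).symm 1 0, (hD _).symm 2 0,
      (hD _).symm 2 1] at a0 a1 a2 ⊢
    linear_combination α 0 * a0 + α 1 * a1 + α 2 * a2
  have h2 : rr D α = ∑ j, ∑ n, (∑ m, eta s j n m * r j m) ^ 2 := by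
    rw [rr, Finset.sum_comm]
    exact Finset.sum_congr rfl fun j _ => (iso_Div hs j (r j)).symm
  rw [← iso_Diag hs (α := α) (by simpa only [Un, sq] using hα), h2, Finset.sum_comm,
    Finset.mul_sum]
  refine Finset.sum_le_sum fun n _ => ?_
  rw [h1, neg_sq, Fin.sum_univ_three, Fin.sum_univ_three]
  nlinarith [sq_nonneg (∑ m, eta s 0 n m * r 0 m - ∑ m, eta s 1 n m * r 1 m),
    sq_nonneg (∑ m, eta s 0 n m * r 0 m - ∑ m, eta s 2 n m * r 2 m),
    sq_nonneg (∑ m, eta s 1 n m * r 1 m - ∑ m, eta s 2 n m * r 2 m)]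

end

end Vale.Agent.P211
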