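import Vale.Agent.P211.E.EigA

/-! P211 E/Eig (TASK, owner helper99). Helper names end with `_Eig`. Extremal eigenvectors of a symmetric traceless matrix; `f = qf A α`.
`hom`: normalise `a` (divide by `√(∑ a ^ 2)`), case `a = 0`. `eigvec`: `hom` for `α + t b` gives a quadratic in `t` that is nonnegative and vanishes at `0`, so its linear coefficient is zero; take `b = Pi.single i 1`
(or use `diag3`). `qf_wz`: `∑ α i α j (A A) i j = ∑ k (A α) k ^ 2 = f ^ 2`. `char`: the entrywise identity `A A A = nsq A / 2 • A + cub A / 3 • 1` (five entries, `ring`) paired with `α`.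
`bounds`: `diag3`; `hom` or `le` at the columns gives `s f ≤ s w k` for all `k`; `∑ w = 0`, `nsq = ∑ w ^ 2`; `f` is one of the `w k` or argue with `f = ∑ w k * y k ^ 2`, `∑ y k ^ 2 = 1`
(alternatively `3 / 2 f ^ 2 ≤ nsq` from `0 ≤ nsq (A - f (3 α αᵀ - 1) / 2)`). `qf_sq_le`: `ip3_sq_le` with the matrix `a i * a j`. -/

namespace Vale.Agent.P211

open Filter Topology Set

noncomputable section

variable {μ s : ℝ} {A : M3} {D : Fin 4 → M3} {α : Fin 3 → ℝ}

theorem Xt.char (hA : ST A) (hs : s = 1 ∨ s = -1) (h : Xt s A α) :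
    cub A = 3 * qf A α ^ 3 - 3 / 2 * nsq A * qf A α := by
  have e0 := h.eigvec hA hs 0
  have e1 := h.eigvec hA hs 1
  have e2 := h.eigvec hA hs 2
  have u := h.un
  have t := hA.tr
  generalize qf A α = f at *
  simp only [cub, nsq, ip3, mul3, Un, Fin.sum_univ_three, hA.symm 1 0, hA.symm 2 0,
    hA.symm 2 1] at *
  obtain e : A 2 2 = -A 0 0 - A 1 1 := by linarith
  rw [e] at e2 ⊢
  generalize A 0 0 = a at *
  generalize A 0 1 = b at *
  generalize A 0 2 = c at *
  generalize A 1 1 = d at *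
  generalize A 1 2 = g at *
  generalize α 0 = x at *
  generalize α 1 = y at *
  generalize α 2 = z at *
  linear_combination
    3 * (a * (a * x + b * y + c * z) + b * (b * x + d * y + g * z) +
      c * (c * x + g * y + (-a - d) * z) + f * (a * x + b * y + c * z) + f ^ 2 * x -
      (a ^ 2 + a * d + d ^ 2 + b ^ 2 + c ^ 2 + g ^ 2) * x) * e0 +
    3 * (b * (a * x + b * y + c * z) + d * (b * x + d * y + g * z) +
      g * (c * x + g * y + (-a - d) * z) + f * (b * x + d * y + g * z) + f ^ 2 * y -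
      (a ^ 2 + a * d + d ^ 2 + b ^ 2 + c ^ 2 + g ^ 2) * y) * e1 +
    3 * (c * (a * x + b * y + c * z) + g * (b * x + d * y + g * z) +
      (-a - d) * (c * x + g * y + (-a - d) * z) + f * (c * x + g * y + (-a - d) * z) + f ^ 2 * z -
      (a ^ 2 + a * d + d ^ 2 + b ^ 2 + c ^ 2 + g ^ 2) * z) * e2 +
    3 * (f ^ 3 - (a ^ 2 + a * d + d ^ 2 + b ^ 2 + c ^ 2 + g ^ 2) * f -
      (a * d * (-a - d) + 2 * b * c * g - a * g ^ 2 - d * c ^ 2 - (-a - d) * b ^ 2)) * u

theorem min_Eig {p q r : ℝ} (h : ∀ t : ℝ, 0 ≤ p * (t * t) + 2 * q * t + r) : q ^ 2 ≤ p * r := by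
  have := discrim_le_zero h
  rw [discrim] at this
  linarith

theorem Xt.bounds (hA : ST A) (hs : s = 1 ∨ s = -1) (h : Xt s A α) :
    s * qf A α ≤ 0 ∧ nsq A ≤ 6 * qf A α ^ 2 ∧ 3 / 2 * qf A α ^ 2 ≤ nsq A := by
  have t := hA.tr
  have u := h.un
  have s2 : s ^ 2 = 1 := by rcases hs with rfl | rfl <;> norm_num
  have k : ∀ x y z : ℝ, s * qf A α * (x ^ 2 + y ^ 2 + z ^ 2) ≤ s * (x ^ 2 * A 0 0 + y ^ 2 * A 1 1 +
      z ^ 2 * A 2 2 + 2 * x * y * A 0 1 + 2 * x * z * A 0 2 + 2 * y * z * A 1 2) := fun x y z => by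
    have := h.hom ![x, y, z]
    generalize qf A α = f at *
    simp only [qf, Fin.sum_univ_three, hA.symm 1 0, hA.symm 2 0, hA.symm 2 1, Matrix.cons_val_zero,
      Matrix.cons_val_one, Matrix.cons_val_two, Matrix.head_cons, Matrix.tail_cons] at this
    linarith
  have p := nsq_nonneg fun i j =>
    A i j - qf A α * (3 * α i * α j - if i = j then 1 else 0) / 2
  have hf : qf A α = ∑ i, ∑ j, α i * α j * A i j := rfl
  generalize qf A α = f at *
  have m1 : (s * A 0 1) ^ 2 ≤ s * (A 0 0 - f) * (s * (A 1 1 - f)) :=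
    min_Eig fun t => by linarith [k t 1 0]
  have m2 : (s * A 0 2) ^ 2 ≤ s * (A 0 0 - f) * (s * (A 2 2 - f)) :=
    min_Eig fun t => by linarith [k t 0 1]
  have m3 : (s * A 1 2) ^ 2 ≤ s * (A 1 1 - f) * (s * (A 2 2 - f)) :=
    min_Eig fun t => by linarith [k 0 t 1]
  rw [mul_pow, mul_mul_mul_comm, ← sq, s2, one_mul, one_mul] at m1 m2 m3
  have k1 := k 1 0 0
  have k2 := k 0 1 0
  have k3 := k 0 0 1
  simp only [nsq, Un, Fin.sum_univ_three, hA.symm 1 0, hA.symm 2 0, hA.symm 2 1, Fin.reduceEq,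
    if_true, if_false, reduceIte] at t u p hf ⊢
  obtain e : A 2 2 = -A 0 0 - A 1 1 := by linarith
  rw [e] at m2 m3 k3 p hf ⊢
  refine ⟨by linarith, by linarith, ?_⟩
  linear_combination p + 3 * f * hf +
    f ^ 2 / 4 * (9 * (α 0 ^ 2 + α 1 ^ 2 + α 2 ^ 2) + 3) * u

end

end Vale.Agent.P211
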