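import Vale.Agent.P211.E.Defs

/-! P211 E/Eig (TASK, owner helper99). Helper names end with `_EigA`. Extremal eigenvectors of a symmetric traceless matrix; `f = qf A α`.
`hom`: normalise `a` (divide by `√(∑ a ^ 2)`), case `a = 0`. `eigvec`: `hom` for `α + t b` gives a quadratic in `t` that is nonnegative and vanishes at `0`, so its linear coefficient is zero; take `b = Pi.single i 1`
(or use `diag3`). `qf_wz`: `∑ α i α j (A A) i j = ∑ k (A α) k ^ 2 = f ^ 2`. `char`: the entrywise identity `A A A = nsq A / 2 • A + cub A / 3 • 1` (five entries, `ring`) paired with `α`.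
`bounds`: `diag3`; `hom` or `le` at the columns gives `s f ≤ s w k` for all `k`; `∑ w = 0`, `nsq = ∑ w ^ 2`; `f` is one of the `w k` or argue with `f = ∑ w k * y k ^ 2`, `∑ y k ^ 2 = 1`
(alternatively `3 / 2 f ^ 2 ≤ nsq` from `0 ≤ nsq (A - f (3 α αᵀ - 1) / 2)`). `qf_sq_le`: `ip3_sq_le` with the matrix `a i * a j`. -/

namespace Vale.Agent.P211

open Filter Topology Set

noncomputable section

variable {μ s : ℝ} {A : M3} {D : Fin 4 → M3} {α : Fin 3 → ℝ}

theorem Xt.hom (h : Xt s A α) (a : Fin 3 → ℝ) : s * qf A α * ∑ i, a i ^ 2 ≤ s * qf A a := by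
  rcases (Finset.sum_nonneg fun i (_ : i ∈ Finset.univ) => sq_nonneg (a i)).eq_or_lt with e | e
  · have z : ∀ i, a i = 0 := fun i => pow_eq_zero_iff two_ne_zero |>.1
      ((Finset.sum_eq_zero_iff_of_nonneg fun i _ => sq_nonneg (a i)).1 e.symm i (Finset.mem_univ i))
    simp [qf, z]
  obtain ⟨r, hr, r2⟩ : ∃ r : ℝ, 0 < r ∧ r ^ 2 = ∑ i, a i ^ 2 :=
    ⟨√_, Real.sqrt_pos.2 e, Real.sq_sqrt e.le⟩
  have k := h.le (fun i => a i / r) (by
    simp only [Un, div_pow]
    rw [← Finset.sum_div, r2, div_self e.ne'])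
  have e2 : qf A (fun i => a i / r) = qf A a / r ^ 2 := by
    simp only [qf, Fin.sum_univ_three]
    field_simp
  rwa [e2, ← mul_div_assoc, le_div_iff₀ (by positivity), r2] at k

theorem Xt.eigvec (hA : ST A) (hs : s = 1 ∨ s = -1) (h : Xt s A α) (i : Fin 3) :
    ∑ j, A i j * α j = qf A α * α i := by
  have key : ∀ b : Fin 3 → ℝ, ∑ i, b i * (∑ j, A i j * α j - qf A α * α i) = 0 := by
    intro b
    have k := discrim_le_zero (a := s * (qf A b - qf A α * ∑ i, b i ^ 2))
      (b := 2 * s * ∑ i, b i * (∑ j, A i j * α j - qf A α * α i)) (c := 0) fun t => by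
        have k := h.hom fun i => α i + t * b i
        have e1 : ∑ i, (α i + t * b i) ^ 2 =
            ∑ i, α i ^ 2 + 2 * t * ∑ i, b i * α i + t * t * ∑ i, b i ^ 2 := by
          simp only [Fin.sum_univ_three]
          ring
        have e2 : qf A (fun i => α i + t * b i) =
            qf A α + 2 * t * ∑ i, b i * ∑ j, A i j * α j + t * t * qf A b := by
          simp only [qf, Fin.sum_univ_three, hA.symm 1 0, hA.symm 2 0, hA.symm 2 1]
          ring
        have e3 : ∑ i, b i * (∑ j, A i j * α j - qf A α * α i) =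
            ∑ i, b i * ∑ j, A i j * α j - qf A α * ∑ i, b i * α i := by
          simp only [Fin.sum_univ_three]
          ring
        rw [e1, e2, h.un] at k
        rw [e3]
        linarith
    rw [discrim, mul_zero, sub_zero] at k
    have k2 := pow_eq_zero_iff two_ne_zero |>.1 (le_antisymm k (sq_nonneg _))
    rcases hs with rfl | rfl <;> linarith
  have k := key (Pi.single i 1)
  simp only [Pi.single_apply, ite_mul, one_mul, zero_mul, Finset.sum_ite_eq', Finset.mem_univ,
    if_true] at k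
  linarith

theorem Xt.qf_wz (hA : ST A) (hs : s = 1 ∨ s = -1) (h : Xt s A α) (μ : ℝ) :
    qf (wz μ A) α = 6 * μ * qf A α - 6 * qf A α ^ 2 + 2 * nsq A := by
  have e : qf (wz μ A) α = 6 * μ * qf A α - 6 * ∑ i, (∑ j, A i j * α j) ^ 2 +
      2 * nsq A * ∑ i, α i ^ 2 := by
    simp [qf, wz, mul3, Fin.sum_univ_three, hA.symm 1 0, hA.symm 2 0, hA.symm 2 1]
    ring
  simp only [h.eigvec hA hs, mul_pow] at e
  rw [e, ← Finset.mul_sum, h.un, mul_one, mul_one]

theorem qf_sq_le (A : M3) (a : Fin 3 → ℝ) : qf A a ^ 2 ≤ nsq A * (∑ i, a i ^ 2) ^ 2 := by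
  have e1 : qf A a = ip3 A fun i j => a i * a j := by
    simp only [qf, ip3, mul_comm]
  have e2 : (∑ i, a i ^ 2) ^ 2 = nsq fun i j => a i * a j := by
    simp only [nsq, Fin.sum_univ_three]
    ring
  rw [e1, e2]
  exact ip3_sq_le _ _

end

end Vale.Agent.P211
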