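import Vale.Agent.P211.E.Defs
import Vale.Agent.P211.AlgK

/-! P211 E/Pl (TASK, owner helper99). Helper names end with `_Pl`. Planes and pairs of unit vectors.
`gram`: `ring` after unfolding `eta` (`s ^ 2 = 1`, the Pluecker relation). `sec_eq`: `Curv.param`, `half_AlgK` with `N = 1` and `α i = ∑ eta s i a b u a v b` (unit by `gram`), see the proof of `Curv.pos`.
`planes_on`: from `planes` get `u, v, N` with Gram determinant `N ^ 2 > 0` (`gram`); orthonormalise: `u' = u / |u|`, `v' = (v - (u·v / |u| ^ 2) u) * |u| / N`; the pairings are bilinear and antisymmetric, so they are divided by `N`. -/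

namespace Vale.Agent.P211

open Filter Topology Set

noncomputable section

variable {μ s : ℝ} {r : Arr}

/-- The pairing of a plane with the three forms. -/
def pr (s : ℝ) (u v : Fin 4 → ℝ) : Fin 3 → ℝ := fun i => ∑ a, ∑ b, eta s i a b * u a * v b

theorem gram (hs : s = 1 ∨ s = -1) (u v : Fin 4 → ℝ) :
    ∑ i, pr s u v i ^ 2 = (∑ a, u a ^ 2) * (∑ a, v a ^ 2) - (∑ a, u a * v a) ^ 2 := by
  rcases hs with rfl | rfl <;> simp [pr, eta, Fin.sum_univ_four, Fin.sum_univ_three] <;> ring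

theorem Curv.sec_eq (h : Curv μ r) {u v : Fin 4 → ℝ} (hu : ∑ a, u a ^ 2 = 1) (hv : ∑ a, v a ^ 2 = 1)
    (huv : ∑ a, u a * v a = 0) :
    ∑ a, ∑ b, ∑ c, ∑ d, u a * v b * u c * v d * r a b c d =
      μ + (qf (weyl 1 μ r) (pr 1 u v) + qf (weyl (-1) μ r) (pr (-1) u v)) / 2 := by
  have g1 : ∑ i, pr 1 u v i ^ 2 = 1 := by
    rw [gram (Or.inl rfl), hu, hv, huv]
    norm_num
  have g2 : ∑ i, pr (-1) u v i ^ 2 = 1 := by
    rw [gram (Or.inr rfl), hu, hv, huv]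
    norm_num
  have hp := h.param
  generalize weyl 1 μ r = A at *
  generalize weyl (-1) μ r = C at *
  rw [hp]
  simp only [mdl, mul_add (_ * v _), Finset.sum_add_distrib]
  rw [half_AlgK 1 μ 1 u v A g1 fun i => (one_mul _).symm,
    half_AlgK (-1) μ 1 u v C g2 fun i => (one_mul _).symm]
  unfold qf
  ring

theorem bil_Pl (s x y z : ℝ) (u v : Fin 4 → ℝ) (i : Fin 3) :
    pr s (fun a => x * u a) (fun a => y * v a + z * u a) i = x * y * pr s u v i := by
  fin_cases i <;> simp [pr, eta, Fin.sum_univ_four] <;> ring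

theorem planes_on {α β : Fin 3 → ℝ} (hα : Un α) (hβ : Un β) : ∃ u v : Fin 4 → ℝ,
    ∑ a, u a ^ 2 = 1 ∧ ∑ a, v a ^ 2 = 1 ∧ ∑ a, u a * v a = 0 ∧ pr 1 u v = α ∧ pr (-1) u v = β := by
  obtain ⟨u, v, N, hN, h1, h2⟩ := planes hα hβ
  have h3 : ∀ i, pr 1 u v i = N * α i := h1
  have h4 : ∀ i, pr (-1) u v i = N * β i := h2
  have g := gram (Or.inl rfl) u v
  have hα' : ∑ i, α i ^ 2 = 1 := hα
  simp only [h3, mul_pow] at g
  rw [← Finset.mul_sum, hα', mul_one] at g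
  have ha0 : 0 ≤ ∑ a, u a ^ 2 := Finset.sum_nonneg fun _ _ => sq_nonneg _
  have ha : 0 < ∑ a, u a ^ 2 := by
    refine lt_of_le_of_ne ha0 fun e => ?_
    rw [← e] at g
    nlinarith [sq_nonneg (∑ a, u a * v a)]
  obtain ⟨ρ, hρ, e⟩ : ∃ ρ : ℝ, 0 < ρ ∧ ∑ a, u a ^ 2 = ρ ^ 2 :=
    ⟨_, Real.sqrt_pos.2 ha, (Real.sq_sqrt ha0).symm⟩
  have k1 : ∀ x : ℝ, ∑ a, (x * u a) ^ 2 = x ^ 2 * ∑ a, u a ^ 2 := fun x => by
    simp only [Fin.sum_univ_four]
    ring
  have k2 : ∀ y z : ℝ, ∑ a, (y * v a + z * u a) ^ 2 =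
      y ^ 2 * ∑ a, v a ^ 2 + 2 * y * z * ∑ a, u a * v a + z ^ 2 * ∑ a, u a ^ 2 := fun y z => by
    simp only [Fin.sum_univ_four]
    ring
  have k3 : ∀ x y z : ℝ, ∑ a, x * u a * (y * v a + z * u a) =
      x * y * ∑ a, u a * v a + x * z * ∑ a, u a ^ 2 := fun x y z => by
    simp only [Fin.sum_univ_four]
    ring
  refine ⟨fun a => ρ⁻¹ * u a, fun a => ρ / N * v a + -((∑ a, u a * v a) / (ρ * N)) * u a,
    ?_, ?_, ?_, funext fun i => ?_, funext fun i => ?_⟩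
  · rw [k1, e]
    field_simp
  · rw [k2, e]
    rw [e] at g
    field_simp
    linear_combination -g
  · rw [k3, e]
    field_simp
    ring
  · rw [bil_Pl, h3]
    field_simp
  · rw [bil_Pl, h4]
    field_simp

end

end Vale.Agent.P211
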