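import Vale.Agent.P211.E.Main
import Vale.Agent.P211.E.Pl
import Vale.Agent.P211.Final
import Vale.Agent.P211.Stmt2

/-! P211 E/Final (owner helper99): constant least or greatest sectional curvature. -/

namespace Vale.Agent.P211

open scoped ContDiff Manifold Topology
open Vale.Agent.P255 Vale.Agent.P234 Vale.Agent.P231 Filter Set Function

noncomputable section

variable {M : Type*} [TopologicalSpace M] [ChartedSpace E4 M] [IsManifold 𝓘(ℝ, E4) ∞ M]
  [T2Space M] [CompactSpace M] {g : Metric E4 M} {l : ℝ}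

theorem rm_expand (o : Fm g) (u v : Fin 4 → ℝ) :
    rm g o.1.1 (∑ a, u a • o.1.2 a) (∑ a, v a • o.1.2 a) (∑ a, u a • o.1.2 a) (∑ a, v a • o.1.2 a) =
      ∑ a, ∑ b, ∑ c, ∑ d, u a * v b * u c * v d * r0 o a b c d := by
  change R0 g o.1.1 ![∑ a, u a • o.1.2 a, ∑ a, v a • o.1.2 a, ∑ a, u a • o.1.2 a,
      ∑ a, v a • o.1.2 a] = _
  rw [sum_Cpt (lin_Cpt g o.1.1 _ _ _).1]
  refine Finset.sum_congr rfl fun a _ => ?_
  rw [sum_Cpt (lin_Cpt g o.1.1 _ _ _).2.1, Finset.mul_sum]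
  refine Finset.sum_congr rfl fun b _ => ?_
  rw [sum_Cpt (lin_Cpt g o.1.1 _ _ _).2.2.1, Finset.mul_sum, Finset.mul_sum]
  refine Finset.sum_congr rfl fun c _ => ?_
  rw [sum_Cpt (lin_Cpt g o.1.1 _ _ _).2.2.2, Finset.mul_sum, Finset.mul_sum, Finset.mul_sum]
  refine Finset.sum_congr rfl fun d _ => ?_
  simp only [r0]
  ring

omit [IsManifold 𝓘(ℝ, E4) ∞ M] [T2Space M] [CompactSpace M] in
theorem ip_expand (o : Fm g) (u v : Fin 4 → ℝ) :
    ipr g o.1.1 (∑ a, u a • o.1.2 a) (∑ a, v a • o.1.2 a) = ∑ a, u a * v a := by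
  have h := o.2
  unfold ON ipr at h
  simp only [ipr, map_sum, map_smul, sum_apply,
    smul_apply, smul_eq_mul, h, mul_ite, mul_one, mul_zero,
    Finset.sum_ite_eq', Finset.mem_univ, if_true]
  exact Finset.sum_congr rfl fun a _ => mul_comm _ _

theorem ext_of (hE : Einstein g l) {s κ : ℝ}
    (h1 : ∀ x, ∃ u v, ON2 g x u v ∧ rm g x u v u v = κ)
    (h2 : ∀ x u v, ON2 g x u v → s * κ ≤ s * rm g x u v u v) :
    ∃ α : Bool → Fm g → Fin 3 → ℝ, (∀ ε o, Xt s (wA l ε o) (α ε o)) ∧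
      ∀ o, qf (wA l true o) (α true o) + qf (wA l false o) (α false o) = 2 * (κ - l / 3) := by
  have key : ∀ o : Fm g, ∃ α : Bool → Fin 3 → ℝ, (∀ ε, Un (α ε)) ∧
      qf (wA l true o) (α true) + qf (wA l false o) (α false) = 2 * (κ - l / 3) := fun o => by
    obtain ⟨u, v, ⟨a1, a2, a3⟩, a4⟩ := h1 o.1.1
    rw [o.2.span u, o.2.span v] at a3 a4
    rw [o.2.span u] at a1
    rw [o.2.span v] at a2
    rw [ip_expand] at a1 a2 a3
    simp only [← sq] at a1 a2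
    rw [rm_expand, (curv_r0 hE o).sec_eq a1 a2 a3] at a4
    refine ⟨fun ε => pr (sg ε) (fun a => ipr g o.1.1 u (o.1.2 a)) fun a => ipr g o.1.1 v (o.1.2 a),
      fun ε => ?_, ?_⟩
    · unfold Un
      rw [gram (sg_cases ε), a1, a2, a3]
      norm_num
    · change qf (weyl 1 _ _) (pr 1 _ _) + qf (weyl (-1) _ _) (pr (-1) _ _) = _
      linarith
  have le : ∀ (o : Fm g) a b, Un a → Un b →
      s * (2 * (κ - l / 3)) ≤ s * (qf (wA l true o) a + qf (wA l false o) b) := fun o a b ha hb => by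
    obtain ⟨u, v, a1, a2, a3, rfl, rfl⟩ := planes_on ha hb
    have k := h2 o.1.1 (∑ a, u a • o.1.2 a) (∑ a, v a • o.1.2 a)
      ⟨by simp only [ip_expand, ← sq, a1], by simp only [ip_expand, ← sq, a2],
        by rw [ip_expand, a3]⟩
    rw [rm_expand, (curv_r0 hE o).sec_eq a1 a2 a3] at k
    change _ ≤ s * (qf (weyl 1 _ _) _ + qf (weyl (-1) _ _) _)
    linarith
  choose α hu he using key
  refine ⟨fun ε o => α o ε, fun ε o => ⟨hu o ε, fun a ha => ?_⟩, he⟩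
  have e := he o
  cases ε
  · have := le o _ a (hu o true) ha
    rw [← e] at this
    linarith
  · have := le o a _ ha (hu o false)
    rw [← e] at this
    linarith

theorem compact_w (g : Metric E4 M) (l : ℝ) :
    IsCompact (range fun o : Fm g => (wA l true o, wA l false o)) := by
  have h := (compact_r0 g).image
    ((continuous_weyl (sg true) (l / 3)).prodMk (continuous_weyl (sg false) (l / 3)))
  rwa [← range_comp] at h

theorem ext_min (hE : Einstein g l) (hK : SecNonneg g) [Nonempty M] {κ : ℝ} (h : MinSec g κ) :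
    ∃ α, Ext (l / 3) 1 (2 * (κ - l / 3)) (wA (g := g) l) α := by
  obtain ⟨x⟩ := ‹Nonempty M›
  obtain ⟨u, v, -, e⟩ := (h x).1
  have := hK x u v
  obtain ⟨α, h1, h2⟩ := ext_of (s := 1) hE (fun x => (h x).1) fun x u v k => by
    simpa using (h x).2 ⟨u, v, k, rfl⟩
  exact ⟨α, Or.inl ⟨rfl, by linarith⟩, h1, h2⟩

theorem ext_max (hE : Einstein g l) (hK : SecNonneg g) [Nonempty M] {κ : ℝ} (h : MaxSec g κ) :
    ∃ α, Ext (l / 3) (-1) (2 * (κ - l / 3)) (wA (g := g) l) α := by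
  obtain ⟨α, h1, h2⟩ := ext_of (s := -1) hE (fun x => (h x).1) fun x u v k => by
    simpa using (h x).2 ⟨u, v, k, rfl⟩
  refine ⟨α, Or.inr ⟨rfl, ?_⟩, h1, h2⟩
  have hS := sys_of hE hK
  obtain ⟨o, -⟩ := hS.cpt (fun _ => 0) continuous_const
  have h66 : √6 * √6 = (6 : ℝ) := Real.mul_self_sqrt (by norm_num)
  have b : ∀ ε, qf (wA l ε o) (α ε o) ≤ √6 / 3 * √(nsq (wA l ε o)) := fun ε => by
    have b1 := ((h1 ε o).bounds (hS.st ε o) (Or.inr rfl)).2.2
    refine le_of_sq_le_sq ?_ (by positivity)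
    rw [mul_pow, Real.sq_sqrt (nsq_nonneg _), div_pow, Real.sq_sqrt (by norm_num)]
    linarith
  have p := mul_le_mul_of_nonneg_left (hS.pos o) (show (0 : ℝ) ≤ √6 / 3 by positivity)
  rw [← h2 o]
  have b1 := b true
  have b2 := b false
  have e : √6 / 3 * (2 * √6 * (l / 3)) = 4 * (l / 3) := by linear_combination (2 * l / 9) * h66
  linarith

theorem finalE [ConnectedSpace M] (hl : 0 < l) (hE : Einstein g l) (hK : SecNonneg g)
    (H : (∃ p c : ℝ, 1 / 3 < p ∧ ∀ x e, ON g x e → wn g l 1 x e ^ p + wn g l (-1) x e ^ p = c) ∨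
      (∃ κ, MinSec g κ) ∨ ∃ κ, MaxSec g κ) :
    LocSymm g ∧ (∀ x e, ON g x e → ∀ s, s = 1 ∨ s = -1 →
      wn g l s x e = 0 ∨ wn g l s x e = √(2 / 3) * l) ∧
      (MinSec g 0 → ∀ x e, ON g x e → ∀ s, s = 1 ∨ s = -1 → wn g l s x e = √(2 / 3) * l) := by
  have hS := sys_of hE hK
  have hμ : 0 < l / 3 := by positivity
  have hne : ∀ y, ∃ o : Fm g, o.1.1 = y := fun y =>
    (exists_ON g y).elim fun f hf => ⟨⟨(y, f), hf⟩, rfl⟩
  have val : ∀ (ε : Bool) (o : Fm g), nsq (wA l ε o) = 6 * (l / 3) ^ 2 →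
      wn g l (sg ε) o.1.1 o.1.2 = √(2 / 3) * l := fun ε o k => by
    rw [wn_eq, k, show 6 * (l / 3) ^ 2 = 2 / 3 * l ^ 2 by ring, Real.sqrt_mul (by norm_num),
      Real.sqrt_sq hl.le]
  have fin : ∀ {s k : ℝ} {α}, Ext (l / 3) s k (wA (g := g) l) α → ∀ x p m, R1 g x p m = 0 :=
    fun hx => symm_of hE (hS.mainE hμ hx (compact_w g l) (fun o => o.1.1) (reach l) hne)
  have concl : (∀ x p m, R1 g x p m = 0) → LocSymm g ∧ ∀ x e, ON g x e → ∀ s, s = 1 ∨ s = -1 →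
      wn g l s x e = 0 ∨ wn g l s x e = √(2 / 3) * l := fun hR => by
    refine ⟨locSymm_of hR, fun x e he s hs => ?_⟩
    obtain ⟨ε, rfl⟩ : ∃ ε, s = sg ε := hs.elim (fun k => ⟨true, k⟩) fun k => ⟨false, k⟩
    refine (hS.fin (wD_zero hR) ε ⟨(x, e), he⟩).imp (fun k => ?_) (val ε ⟨(x, e), he⟩)
    exact (wn_eq l ε ⟨(x, e), he⟩).trans (by rw [k, Real.sqrt_zero])
  have z : MinSec g 0 → ∀ x e, ON g x e → ∀ s, s = 1 ∨ s = -1 →
      wn g l s x e = √(2 / 3) * l := fun h0 x e he s hs => by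
    obtain ⟨ε, rfl⟩ : ∃ ε, s = sg ε := hs.elim (fun k => ⟨true, k⟩) fun k => ⟨false, k⟩
    obtain ⟨α, hx⟩ := ext_min hE hK h0
    rw [show 2 * (0 - l / 3) = -(2 * (l / 3)) by ring] at hx
    exact val ε ⟨(x, e), he⟩ (hS.zero_case hμ hx (wD_zero (fin hx)) ε _)
  rcases H with ⟨p, c, hp, h⟩ | ⟨κ, h⟩ | ⟨κ, h⟩
  · exact ⟨(final hl hE hK hp h).1, (final hl hE hK hp h).2, z⟩
  · obtain ⟨α, hx⟩ := ext_min hE hK h
    exact ⟨(concl (fin hx)).1, (concl (fin hx)).2, z⟩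
  · obtain ⟨α, hx⟩ := ext_max hE hK h
    exact ⟨(concl (fin hx)).1, (concl (fin hx)).2, z⟩

end

end Vale.Agent.P211
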