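import Vale.Agent.P211.E.Eig

/-! P211 E/Gr (TASK, owner helper99). Helper names end with `_GrB`. Write `f ε o = qf (A ε o) (α ε o)`.
`gap`: `Xt.qf_wz`, `Xt.bounds`, `Ext.eq`, cases of `Ext.sk` (for `s = 1`: `k ≤ 0`, the left side is at most `6 μ k + 3 k ^ 2 + 3 (f - h) ^ 2`; for `s = -1`: `0 ≤ k`, at most `-6 μ k + 3 / 2 k ^ 2 + 3 / 2 (f - h) ^ 2`).
`eqcase`: `test` gives `0 ≤ s * (..)` (`rr ≥ 0`), so all inequalities are equalities when `f = h = k / 2`.
`fderiv1`: squeeze at `t`: with the fixed vectors `α ε (c t)`, `s f true (c u) ≤ s qf (A true (c u)) α` and `f true (c u) = k - f false (c u)`; both bounds are differentiable (`Crv.d1`), agree at `u = t`, so their derivatives agree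
(`IsLocalMin.hasDerivAt_eq_zero`) and `f` has this derivative (`hasDerivAt_iff_isLittleO`, or `tendsto_of_tendsto_of_tendsto_of_le_of_le'` on slopes).
`gronE`: `φ u = 2 f true (c u) - k`, `φ' ^ 2 ≤ 4 |v| ^ 2 ∑ qf (D m) α ^ 2 ≤ 4 |v| ^ 2 * 3 * 15 μ φ ^ 2` (`div_le`, `test`, `gap`); `eq_zero_of_abs_deriv_le_mul_abs_self_of_eq_zero_right` for `φ` and for `φ (-·)`. -/

namespace Vale.Agent.P211

open Filter Topology Set

noncomputable section

variable {O : Type*} {μ s k : ℝ} {A : Bool → O → M3} {D : Bool → O → Fin 4 → M3}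
  {D2 : Bool → O → Fin 4 → Fin 4 → M3} {α : Bool → O → Fin 3 → ℝ} {v : Fin 4 → ℝ} {c : ℝ → O}

theorem squeeze_GrB {f g h : ℝ → ℝ} {g' h' t : ℝ} (hg : HasDerivAt g g' t)
    (hh : HasDerivAt h h' t) (h1 : ∀ u, g u ≤ f u) (h2 : ∀ u, f u ≤ h u) (e1 : g t = f t)
    (e2 : h t = f t) : HasDerivAt f h' t := by
  have h3 : HasDerivAt (fun u => h u - g u) (h' - g') t := hh.sub hg
  have h4 : h' - g' = 0 := IsLocalMin.hasDerivAt_eq_zero (Eventually.of_forall fun u => by
    have := h1 u
    have := h2 u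
    change h t - g t ≤ h u - g u
    linarith) h3
  rw [h4, hasDerivAt_iff_isLittleO] at h3
  have h5 : HasDerivAt (fun u => f u - h u) 0 t := by
    rw [hasDerivAt_iff_isLittleO]
    refine Asymptotics.IsBigO.trans_isLittleO (Asymptotics.IsBigO.of_bound' (.of_forall fun u => ?_)) h3
    have := h1 u
    have := h2 u
    simp only [e1, e2, sub_self, smul_zero, sub_zero, Real.norm_eq_abs]
    rw [abs_of_nonpos (by linarith), abs_of_nonneg (by linarith)]
    linarith
  have h6 : HasDerivAt (fun u => f u - h u + h u) (0 + h') t := h5.add hh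
  simpa using h6

theorem Crv.qf_GrB (hc : Crv A D D2 v c) (t : ℝ) (ε : Bool) (a : Fin 3 → ℝ) :
    HasDerivAt (fun u => qf (A ε (c u)) a) (∑ m, v m * qf (D ε (c t) m) a) t := by
  have h1 : HasDerivAt (fun u => ∑ i, ∑ j, a i * a j * A ε (c u) i j)
      (∑ i, ∑ j, a i * a j * ∑ m, v m * D ε (c t) m i j) t :=
    HasDerivAt.fun_sum fun i _ => HasDerivAt.fun_sum fun j _ => (hc.d1 t ε i j).const_mul _
  refine h1.congr_deriv ?_
  simp only [qf, Fin.sum_univ_three, Fin.sum_univ_four]
  ring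

theorem Crv.fderiv1 (hx : Ext μ s k A α) (hc : Crv A D D2 v c) (t : ℝ) :
    HasDerivAt (fun u => qf (A true (c u)) (α true (c u)))
      (∑ m, v m * qf (D true (c t) m) (α true (c t))) t := by
  have hs : s * s = 1 := by rcases hx.hs with h | h <;> rw [h] <;> norm_num
  have h1 := squeeze_GrB (f := fun u => s * qf (A true (c u)) (α true (c u)))
    (((hc.qf_GrB t false (α false (c t))).const_sub k).const_mul s)
    ((hc.qf_GrB t true (α true (c t))).const_mul s)
    (fun u => by
      have h2 := (hx.xt false (c u)).le _ (hx.xt false (c t)).un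
      rw [← hx.eq (c u)]
      linarith)
    (fun u => (hx.xt true (c u)).le _ (hx.xt true (c t)).un)
    (by rw [← hx.eq (c t)]; ring) rfl
  simpa only [← mul_assoc, hs, one_mul] using h1.const_mul s

end

end Vale.Agent.P211
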