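import Vale.Agent.P211.E.GrA
import Vale.Agent.P211.E.GrB
import Vale.Agent.P211.E.Div

/-! P211 E/Gr (TASK, owner helper99). Helper names end with `_Gr`. Write `f ε o = qf (A ε o) (α ε o)`.
`gap`: `Xt.qf_wz`, `Xt.bounds`, `Ext.eq`, cases of `Ext.sk` (for `s = 1`: `k ≤ 0`, the left side is at most `6 μ k + 3 k ^ 2 + 3 (f - h) ^ 2`; for `s = -1`: `0 ≤ k`, at most `-6 μ k + 3 / 2 k ^ 2 + 3 / 2 (f - h) ^ 2`).
`eqcase`: `test` gives `0 ≤ s * (..)` (`rr ≥ 0`), so all inequalities are equalities when `f = h = k / 2`.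
`fderiv1`: squeeze at `t`: with the fixed vectors `α ε (c t)`, `s f true (c u) ≤ s qf (A true (c u)) α` and `f true (c u) = k - f false (c u)`; both bounds are differentiable (`Crv.d1`), agree at `u = t`, so their derivatives agree
(`IsLocalMin.hasDerivAt_eq_zero`) and `f` has this derivative (`hasDerivAt_iff_isLittleO`, or `tendsto_of_tendsto_of_tendsto_of_le_of_le'` on slopes).
`gronE`: `φ u = 2 f true (c u) - k`, `φ' ^ 2 ≤ 4 |v| ^ 2 ∑ qf (D m) α ^ 2 ≤ 4 |v| ^ 2 * 3 * 15 μ φ ^ 2` (`div_le`, `test`, `gap`); `eq_zero_of_abs_deriv_le_mul_abs_self_of_eq_zero_right` for `φ` and for `φ (-·)`. -/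

namespace Vale.Agent.P211

open Filter Topology Set

noncomputable section

variable {O : Type*} {μ s k : ℝ} {A : Bool → O → M3} {D : Bool → O → Fin 4 → M3}
  {D2 : Bool → O → Fin 4 → Fin 4 → M3} {α : Bool → O → Fin 3 → ℝ} {v : Fin 4 → ℝ} {c : ℝ → O}

theorem gron_Gr {φ φ' : ℝ → ℝ} {K : ℝ} (hd : ∀ t, HasDerivAt φ (φ' t) t)
    (hb : ∀ t, |φ' t| ≤ K * |φ t|) (h0 : φ 0 = 0) (t : ℝ) : φ t = 0 := by
  have key : ∀ {φ φ' : ℝ → ℝ}, (∀ t, HasDerivAt φ (φ' t) t) → (∀ t, |φ' t| ≤ K * |φ t|) →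
      φ 0 = 0 → ∀ t, 0 ≤ t → φ t = 0 := fun hd hb h0 t ht =>
    eq_zero_of_abs_deriv_le_mul_abs_self_of_eq_zero_right (K := K) (b := t)
      (fun u _ => (hd u).continuousAt.continuousWithinAt) (fun u _ => (hd u).hasDerivWithinAt) h0
      (fun u _ => hb u) t ⟨ht, le_rfl⟩
  rcases le_total 0 t with ht | ht
  · exact key hd hb h0 t ht
  · have h1 := key (φ := fun u => φ (-u)) (φ' := fun u => φ' (-u) * -1)
      (fun u => HasDerivAt.comp u (h := fun u : ℝ => -u) (hd (-u)) (hasDerivAt_neg u))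
      (fun u => by rw [mul_neg_one, abs_neg]; exact hb _) (by rw [neg_zero, h0]) (-t)
      (neg_nonneg.2 ht)
    rwa [neg_neg] at h1

theorem rr_Gr (D : Fin 4 → M3) (α : Fin 3 → ℝ) : 0 ≤ rr D α :=
  Finset.sum_nonneg fun _ _ => Finset.sum_nonneg fun _ _ => sq_nonneg _

theorem Sys.gronE (h : Sys μ A D D2) (hμ : 0 < μ) (hx : Ext μ s k A α) (hc : Crv A D D2 v c)
    (h0 : qf (A true (c 0)) (α true (c 0)) = qf (A false (c 0)) (α false (c 0))) (t : ℝ) :
    qf (A true (c t)) (α true (c t)) = qf (A false (c t)) (α false (c t)) := by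
  have v0 : 0 ≤ ∑ m, v m ^ 2 := Finset.sum_nonneg fun _ _ => sq_nonneg _
  have l0 : 0 ≤ (∑ m, v m ^ 2) * (45 * μ) := by positivity
  have h1 := gron_Gr (φ := fun u => 2 * qf (A true (c u)) (α true (c u)) - k)
    (K := 2 * ((∑ m, v m ^ 2) * (45 * μ) + 1))
    (fun u => ((hc.fderiv1 hx u).const_mul 2).sub_const k) (fun u => ?_)
    (by linarith [hx.eq (c 0)]) t
  · linarith [hx.eq (c t)]
  have e : 2 * qf (A true (c u)) (α true (c u)) - k =
      qf (A true (c u)) (α true (c u)) - qf (A false (c u)) (α false (c u)) := by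
    linarith [hx.eq (c u)]
  have a1 := Finset.sum_mul_sq_le_sq_mul_sq Finset.univ v
    fun m => qf (D true (c u) m) (α true (c u))
  have a2 := div_le (h.std true (c u)) (sg_cases true) (h.dv true (c u)) (hx.xt true (c u)).un
  have a3 := h.test hμ hx (c u)
  have a4 := mul_le_mul_of_nonneg_left (h.gap hμ hx (c u)) (by positivity : 0 ≤ 10 * μ)
  have a5 := rr_Gr (D false (c u)) (α false (c u))
  rw [← e] at a4
  have a6 : ∑ m, qf (D true (c u) m) (α true (c u)) ^ 2 ≤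
      45 * μ * (2 * qf (A true (c u)) (α true (c u)) - k) ^ 2 := by linarith
  have a7 := a1.trans (mul_le_mul_of_nonneg_left a6 v0)
  rw [abs_mul, abs_two, mul_assoc]
  refine mul_le_mul_of_nonneg_left (abs_le_of_sq_le_sq (a7.trans ?_) (by positivity)) zero_le_two
  rw [mul_pow, sq_abs, ← mul_assoc]
  exact mul_le_mul_of_nonneg_right (by nlinarith) (sq_nonneg _)

end

end Vale.Agent.P211
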