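import Vale.Agent.P211.E.TestB

/-! P211 E/Gr (TASK, owner helper99). Helper names end with `_GrA`. Write `f ε o = qf (A ε o) (α ε o)`.
`gap`: `Xt.qf_wz`, `Xt.bounds`, `Ext.eq`, cases of `Ext.sk` (for `s = 1`: `k ≤ 0`, the left side is at most `6 μ k + 3 k ^ 2 + 3 (f - h) ^ 2`; for `s = -1`: `0 ≤ k`, at most `-6 μ k + 3 / 2 k ^ 2 + 3 / 2 (f - h) ^ 2`).
`eqcase`: `test` gives `0 ≤ s * (..)` (`rr ≥ 0`), so all inequalities are equalities when `f = h = k / 2`.
`fderiv1`: squeeze at `t`: with the fixed vectors `α ε (c t)`, `s f true (c u) ≤ s qf (A true (c u)) α` and `f true (c u) = k - f false (c u)`; both bounds are differentiable (`Crv.d1`), agree at `u = t`, so their derivatives agree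
(`IsLocalMin.hasDerivAt_eq_zero`) and `f` has this derivative (`hasDerivAt_iff_isLittleO`, or `tendsto_of_tendsto_of_tendsto_of_le_of_le'` on slopes).
`gronE`: `φ u = 2 f true (c u) - k`, `φ' ^ 2 ≤ 4 |v| ^ 2 ∑ qf (D m) α ^ 2 ≤ 4 |v| ^ 2 * 3 * 15 μ φ ^ 2` (`div_le`, `test`, `gap`); `eq_zero_of_abs_deriv_le_mul_abs_self_of_eq_zero_right` for `φ` and for `φ (-·)`. -/

namespace Vale.Agent.P211

open Filter Topology Set

noncomputable section

variable {O : Type*} {μ s k : ℝ} {A : Bool → O → M3} {D : Bool → O → Fin 4 → M3}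
  {D2 : Bool → O → Fin 4 → Fin 4 → M3} {α : Bool → O → Fin 3 → ℝ} {v : Fin 4 → ℝ} {c : ℝ → O}

theorem Sys.gap (h : Sys μ A D D2) (hμ : 0 < μ) (hx : Ext μ s k A α) (o : O) :
    s * (qf (wz μ (A true o)) (α true o) + qf (wz μ (A false o)) (α false o)) ≤
      3 * (qf (A true o) (α true o) - qf (A false o) (α false o)) ^ 2 := by
  obtain ⟨a1, a2, a3⟩ := (hx.xt true o).bounds (h.st true o) hx.hs
  obtain ⟨b1, b2, b3⟩ := (hx.xt false o).bounds (h.st false o) hx.hs
  have e := hx.eq o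
  rw [(hx.xt true o).qf_wz (h.st true o) hx.hs, (hx.xt false o).qf_wz (h.st false o) hx.hs]
  generalize qf (A true o) (α true o) = f at *
  generalize qf (A false o) (α false o) = g at *
  subst e
  rcases hx.sk with ⟨rfl, c⟩ | ⟨rfl, c⟩
  · nlinarith [mul_nonneg (show 0 ≤ -(f + g) by linarith) (show 0 ≤ 2 * μ + (f + g) by linarith)]
  · nlinarith [mul_nonneg (show 0 ≤ f + g by linarith) (show 0 ≤ 4 * μ - (f + g) by linarith),
      sq_nonneg (f - g)]

theorem Sys.eqcase (h : Sys μ A D D2) (hμ : 0 < μ) (hx : Ext μ s k A α) {o : O}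
    (he : qf (A true o) (α true o) = qf (A false o) (α false o)) (ε : Bool) :
    nsq (A ε o) = (15 + 9 * s) / 16 * k ^ 2 ∧ (15 + 9 * s) / 16 * k ^ 2 ≤ 6 * μ ^ 2 := by
  obtain ⟨a1, a2, a3⟩ := (hx.xt true o).bounds (h.st true o) hx.hs
  obtain ⟨b1, b2, b3⟩ := (hx.xt false o).bounds (h.st false o) hx.hs
  have e := hx.eq o
  have t := h.test hμ hx o
  have r : ∀ (E : Fin 4 → M3) (a : Fin 3 → ℝ), 0 ≤ rr E a := fun E a =>
    Finset.sum_nonneg fun _ _ => Finset.sum_nonneg fun _ _ => sq_nonneg _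
  have t' := nonneg_of_mul_nonneg_right ((mul_nonneg zero_le_two (add_nonneg (r _ _) (r _ _))).trans t)
    (show 0 < 10 * μ by linarith)
  rw [(hx.xt true o).qf_wz (h.st true o) hx.hs, (hx.xt false o).qf_wz (h.st false o) hx.hs] at t'
  rw [← he] at t' b1 b2 b3 e
  generalize qf (A true o) (α true o) = f at *
  subst e
  rcases hx.sk with ⟨rfl, c⟩ | ⟨rfl, c⟩
  · have d := mul_nonneg (show 0 ≤ -f by linarith) (show 0 ≤ μ + f by linarith)
    refine ⟨?_, by nlinarith⟩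
    cases ε <;> nlinarith
  · have d := mul_nonneg (show 0 ≤ f by linarith) (show 0 ≤ 2 * μ - f by linarith)
    refine ⟨?_, by nlinarith⟩
    cases ε <;> nlinarith

end

end Vale.Agent.P211
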