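import Vale.Agent.P211.E.HfB

/-! P211 E/Hf (TASK, owner helper99). Helper names end with `_Hf`. One side vanishes at each frame, the other has extremal value `k ≠ 0`. Put `a o = nsq (A true o) + nsq (A false o)`, `τ o = cub + cub`.
`pw`: on the vanishing side `A = 0` (`eq_zero_of_nsq`), `qf = 0`, `wz μ 0 = 0`, `cub 0 = 0`; on the other side `f = k`: `Xt.char`, `Xt.bounds`, and `test` with `rr ≥ 0`, `Xt.qf_wz`.
`ext_pt`: `cpt` for `Φ = -s (nsq + nsq)` gives `o₀`. Let `ε` be the non vanishing side at `o₀` (`a > 0` by `pw`). Along `crv o₀ (Pi.single m 1)`, near `0` the other side vanishes, so `a (c t) = nsq (A ε (c t))` and `cub (A ε (c t)) = 3 k ^ 3 - 3 / 2 k nsq`.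
`second_le`: `ip3 A (D m) = 0`, `0 ≤ s * a''`; differentiating the identity once near `0` (`cub1`, `nsq1`) and again at `0` (`cub2`, `nsq2`): `ip3 (A A) (D m) = 0`, `τ'' = -3 / 2 k a''`, and `0 ≤ -k s`. If `6 τ ^ 2 ≠ a ^ 3`, `add_zero3`, `sum_ip`, `ip3_sq_wz`
give `a ^ 2 ≤ 6 μ τ`, so `a ≤ 6 μ ^ 2` (`lt_HalfB`, `cub_sq_le`). Otherwise `a ^ 3 - 6 τ ^ 2 = (a - 6 k ^ 2) ^ 2 (a - 3 / 2 k ^ 2)`.
`halfE`: cases of `s`. `s = 1`, `φ = -k > 0`: `3 φ ^ 2 + 3 μ φ ≤ a ≤ 6 φ ^ 2`; if `a o₀ ≤ 6 μ ^ 2` then `φ ≤ μ` and `a = 6 φ ^ 2` always. `s = -1`: `3 / 2 k ^ 2 ≤ a ≤ 3 k ^ 2 - 3 μ k`, so `2 μ ≤ k`, `6 μ ^ 2 ≤ a`. -/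

namespace Vale.Agent.P211

open Filter Topology Set

noncomputable section

variable {O : Type*} {μ s k : ℝ} {A : Bool → O → M3} {D : Bool → O → Fin 4 → M3}
  {D2 : Bool → O → Fin 4 → Fin 4 → M3} {α : Bool → O → Fin 3 → ℝ} {v : Fin 4 → ℝ} {c : ℝ → O}

theorem Sys.halfE (h : Sys μ A D D2) (hμ : 0 < μ) (hx : Ext μ s k A α) (hk : k ≠ 0)
    (h0 : ∀ o, nsq (A true o) = 0 ∨ nsq (A false o) = 0) :
    ∃ a₀, ∀ o, nsq (A true o) + nsq (A false o) = a₀ := by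
  obtain ⟨o₀, h1, h2⟩ := h.ext_pt hμ hx hk h0
  refine ⟨nsq (A true o₀) + nsq (A false o₀), fun o => ?_⟩
  obtain ⟨a1, -, a2, a3, a4⟩ := h.pw hμ hx h0 o₀
  obtain ⟨-, -, b2, b3, -⟩ := h.pw hμ hx h0 o
  have h3 := h1 o
  generalize nsq (A true o₀) + nsq (A false o₀) = a at *
  generalize nsq (A true o) + nsq (A false o) = b at *
  rcases hx.hs with rfl | rfl
  · have hk' : 0 < -k := neg_pos.2 (lt_of_le_of_ne (by linarith) hk)
    have h4 : μ ≤ -k := by nlinarith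
    have h5 : 6 * k ^ 2 ≤ a := by
      rcases h2 with h2 | h2 | h2
      · have h6 : -k ≤ μ := by nlinarith
        have h7 : μ = -k := le_antisymm h4 h6
        rw [h7] at a4
        nlinarith
      · exact h2.ge
      · nlinarith
    linarith
  · have hk' : 0 < k := lt_of_le_of_ne (by linarith) hk.symm
    have h4 : 2 * μ ≤ k := by nlinarith
    have h5 : a ≤ 3 / 2 * k ^ 2 := by
      rcases h2 with h2 | h2 | h2
      · nlinarith
      · nlinarith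
      · exact h2.le
    linarith

end

end Vale.Agent.P211
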