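import Vale.Agent.P211.E.TestB

/-! P211 E/Hf (TASK, owner helper99). Helper names end with `_HfA`. One side vanishes at each frame, the other has extremal value `k ≠ 0`. Put `a o = nsq (A true o) + nsq (A false o)`, `τ o = cub + cub`.
`pw`: on the vanishing side `A = 0` (`eq_zero_of_nsq`), `qf = 0`, `wz μ 0 = 0`, `cub 0 = 0`; on the other side `f = k`: `Xt.char`, `Xt.bounds`, and `test` with `rr ≥ 0`, `Xt.qf_wz`.
`ext_pt`: `cpt` for `Φ = -s (nsq + nsq)` gives `o₀`. Let `ε` be the non vanishing side at `o₀` (`a > 0` by `pw`). Along `crv o₀ (Pi.single m 1)`, near `0` the other side vanishes, so `a (c t) = nsq (A ε (c t))` and `cub (A ε (c t)) = 3 k ^ 3 - 3 / 2 k nsq`.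
`second_le`: `ip3 A (D m) = 0`, `0 ≤ s * a''`; differentiating the identity once near `0` (`cub1`, `nsq1`) and again at `0` (`cub2`, `nsq2`): `ip3 (A A) (D m) = 0`, `τ'' = -3 / 2 k a''`, and `0 ≤ -k s`. If `6 τ ^ 2 ≠ a ^ 3`, `add_zero3`, `sum_ip`, `ip3_sq_wz`
give `a ^ 2 ≤ 6 μ τ`, so `a ≤ 6 μ ^ 2` (`lt_HalfB`, `cub_sq_le`). Otherwise `a ^ 3 - 6 τ ^ 2 = (a - 6 k ^ 2) ^ 2 (a - 3 / 2 k ^ 2)`.
`halfE`: cases of `s`. `s = 1`, `φ = -k > 0`: `3 φ ^ 2 + 3 μ φ ≤ a ≤ 6 φ ^ 2`; if `a o₀ ≤ 6 μ ^ 2` then `φ ≤ μ` and `a = 6 φ ^ 2` always. `s = -1`: `3 / 2 k ^ 2 ≤ a ≤ 3 k ^ 2 - 3 μ k`, so `2 μ ≤ k`, `6 μ ^ 2 ≤ a`. -/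

namespace Vale.Agent.P211

open Filter Topology Set

noncomputable section

variable {O : Type*} {μ s k : ℝ} {A : Bool → O → M3} {D : Bool → O → Fin 4 → M3}
  {D2 : Bool → O → Fin 4 → Fin 4 → M3} {α : Bool → O → Fin 3 → ℝ} {v : Fin 4 → ℝ} {c : ℝ → O}

theorem rr_HfA (E : Fin 4 → M3) (a : Fin 3 → ℝ) : 0 ≤ rr E a :=
  Finset.sum_nonneg fun _ _ => Finset.sum_nonneg fun _ _ => sq_nonneg _

theorem zero_HfA {B : M3} (h : nsq B = 0) (a : Fin 3 → ℝ) : qf B a = 0 ∧ cub B = 0 := by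
  rw [eq_zero_of_nsq h]
  simp [qf, cub, ip3]

theorem Sys.pw (h : Sys μ A D D2) (hμ : 0 < μ) (hx : Ext μ s k A α)
    (h0 : ∀ o, nsq (A true o) = 0 ∨ nsq (A false o) = 0) (o : O) :
    s * k ≤ 0 ∧ cub (A true o) + cub (A false o) =
      3 * k ^ 3 - 3 / 2 * (nsq (A true o) + nsq (A false o)) * k ∧
    nsq (A true o) + nsq (A false o) ≤ 6 * k ^ 2 ∧
    3 / 2 * k ^ 2 ≤ nsq (A true o) + nsq (A false o) ∧
    0 ≤ s * (6 * μ * k - 6 * k ^ 2 + 2 * (nsq (A true o) + nsq (A false o))) := by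
  have h1 := h.test hμ hx o
  rw [(hx.xt true o).qf_wz (h.st true o) hx.hs, (hx.xt false o).qf_wz (h.st false o) hx.hs] at h1
  have h2 := nonneg_of_mul_nonneg_right
    ((mul_nonneg zero_le_two (add_nonneg (rr_HfA _ _) (rr_HfA _ _))).trans h1) (by positivity)
  have h3 := hx.eq o
  rcases h0 o with e | e
  · obtain ⟨e1, e2⟩ := zero_HfA e (α true o)
    have c1 := (hx.xt false o).char (h.st false o) hx.hs
    obtain ⟨b1, b2, b3⟩ := (hx.xt false o).bounds (h.st false o) hx.hs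
    rw [e1, zero_add] at h3
    rw [e1, e, h3] at h2
    rw [h3] at c1 b1 b2 b3
    rw [e, e2, zero_add, zero_add]
    exact ⟨b1, c1, b2, b3, h2.trans_eq (by ring)⟩
  · obtain ⟨e1, e2⟩ := zero_HfA e (α false o)
    have c1 := (hx.xt true o).char (h.st true o) hx.hs
    obtain ⟨b1, b2, b3⟩ := (hx.xt true o).bounds (h.st true o) hx.hs
    rw [e1, add_zero] at h3
    rw [e1, e, h3] at h2
    rw [h3] at c1 b1 b2 b3
    rw [e, e2, add_zero, add_zero]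
    exact ⟨b1, c1, b2, b3, h2.trans_eq (by ring)⟩

end

end Vale.Agent.P211
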