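import Vale.Agent.P211.E.HfA

/-! P211 E/Hf (TASK, owner helper99). Helper names end with `_HfB`. One side vanishes at each frame, the other has extremal value `k ≠ 0`. Put `a o = nsq (A true o) + nsq (A false o)`, `τ o = cub + cub`.
`pw`: on the vanishing side `A = 0` (`eq_zero_of_nsq`), `qf = 0`, `wz μ 0 = 0`, `cub 0 = 0`; on the other side `f = k`: `Xt.char`, `Xt.bounds`, and `test` with `rr ≥ 0`, `Xt.qf_wz`.
`ext_pt`: `cpt` for `Φ = -s (nsq + nsq)` gives `o₀`. Let `ε` be the non vanishing side at `o₀` (`a > 0` by `pw`). Along `crv o₀ (Pi.single m 1)`, near `0` the other side vanishes, so `a (c t) = nsq (A ε (c t))` and `cub (A ε (c t)) = 3 k ^ 3 - 3 / 2 k nsq`.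
`second_le`: `ip3 A (D m) = 0`, `0 ≤ s * a''`; differentiating the identity once near `0` (`cub1`, `nsq1`) and again at `0` (`cub2`, `nsq2`): `ip3 (A A) (D m) = 0`, `τ'' = -3 / 2 k a''`, and `0 ≤ -k s`. If `6 τ ^ 2 ≠ a ^ 3`, `add_zero3`, `sum_ip`, `ip3_sq_wz`
give `a ^ 2 ≤ 6 μ τ`, so `a ≤ 6 μ ^ 2` (`lt_HalfB`, `cub_sq_le`). Otherwise `a ^ 3 - 6 τ ^ 2 = (a - 6 k ^ 2) ^ 2 (a - 3 / 2 k ^ 2)`.
`halfE`: cases of `s`. `s = 1`, `φ = -k > 0`: `3 φ ^ 2 + 3 μ φ ≤ a ≤ 6 φ ^ 2`; if `a o₀ ≤ 6 μ ^ 2` then `φ ≤ μ` and `a = 6 φ ^ 2` always. `s = -1`: `3 / 2 k ^ 2 ≤ a ≤ 3 k ^ 2 - 3 μ k`, so `2 μ ≤ k`, `6 μ ^ 2 ≤ a`. -/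

namespace Vale.Agent.P211

open Filter Topology Set

noncomputable section

variable {O : Type*} {μ s k : ℝ} {A : Bool → O → M3} {D : Bool → O → Fin 4 → M3}
  {D2 : Bool → O → Fin 4 → Fin 4 → M3} {α : Bool → O → Fin 3 → ℝ} {v : Fin 4 → ℝ} {c : ℝ → O}

theorem side_HfB (h : Sys μ A D D2) (hμ : 0 < μ) (hx : Ext μ s k A α)
    (h0 : ∀ o, nsq (A true o) = 0 ∨ nsq (A false o) = 0) {ε : Bool} {o : O}
    (hp : 0 < nsq (A ε o)) : nsq (A true o) + nsq (A false o) = nsq (A ε o) ∧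
      cub (A ε o) = 3 * k ^ 3 - 3 / 2 * nsq (A ε o) * k := by
  have h1 := (h.pw hμ hx h0 o).2.1
  rcases h0 o with h2 | h2 <;> cases ε
  · rw [h2, eq_zero_of_nsq h2, cub_zero_HalfB, zero_add, zero_add] at h1
    exact ⟨by rw [h2, zero_add], h1⟩
  · exact absurd h2 hp.ne'
  · exact absurd h2 hp.ne'
  · rw [h2, eq_zero_of_nsq h2, cub_zero_HalfB, add_zero, add_zero] at h1
    exact ⟨by rw [h2, add_zero], h1⟩

theorem der_HfB {f f1 g g1 : ℝ → ℝ} {f2 g2 : ℝ} (hs : s = 1 ∨ s = -1) (hk : s * k ≤ 0)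
    (hf : ∀ t, HasDerivAt f (f1 t) t) (hg : ∀ t, HasDerivAt g (g1 t) t)
    (hf2 : HasDerivAt f1 f2 0) (hg2 : HasDerivAt g1 g2 0)
    (hm : ∀ᶠ t in 𝓝 (0 : ℝ), s * f 0 ≤ s * f t)
    (he : ∀ᶠ t in 𝓝 (0 : ℝ), g t = 3 * k ^ 3 - 3 / 2 * f t * k) :
    f1 0 = 0 ∧ g1 0 = 0 ∧ 0 ≤ g2 := by
  obtain ⟨h1, h2⟩ := second_le (f := fun t => -(s * f t)) (hm.mono fun t ht => neg_le_neg ht)
    (Eventually.of_forall fun t => ((hf t).const_mul s).neg) (hf2.const_mul s).neg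
  have h3 : ∀ᶠ t in 𝓝 (0 : ℝ), g1 t = -(3 / 2 * f1 t * k) :=
    he.eventually_nhds.mono fun t ht => (hg t).unique
      (((((hf t).const_mul (3 / 2)).mul_const k).const_sub (3 * k ^ 3)).congr_of_eventuallyEq ht)
  have h4 : g2 = -(3 / 2 * f2 * k) :=
    hg2.unique (((hf2.const_mul (3 / 2)).mul_const k).neg.congr_of_eventuallyEq h3)
  have h5 : f1 0 = 0 := by rcases hs with rfl | rfl <;> linarith
  refine ⟨h5, by rw [h3.self_of_nhds, h5]; ring, ?_⟩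
  rw [h4]
  rcases hs with rfl | rfl <;> nlinarith

theorem Sys.ext_pt (h : Sys μ A D D2) (hμ : 0 < μ) (hx : Ext μ s k A α) (hk : k ≠ 0)
    (h0 : ∀ o, nsq (A true o) = 0 ∨ nsq (A false o) = 0) :
    ∃ o₀, (∀ o, s * (nsq (A true o₀) + nsq (A false o₀)) ≤ s * (nsq (A true o) + nsq (A false o))) ∧
      (nsq (A true o₀) + nsq (A false o₀) ≤ 6 * μ ^ 2 ∨
        nsq (A true o₀) + nsq (A false o₀) = 6 * k ^ 2 ∨
        nsq (A true o₀) + nsq (A false o₀) = 3 / 2 * k ^ 2) := by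
  obtain ⟨o, ho⟩ := h.cpt (fun p => -(s * (nsq p.1 + nsq p.2))) (continuous_const.mul
    ((continuous_nsq.comp continuous_fst).add (continuous_nsq.comp continuous_snd))).neg
  have hm : ∀ o', s * (nsq (A true o) + nsq (A false o)) ≤
      s * (nsq (A true o') + nsq (A false o')) := fun o' => neg_le_neg_iff.1 (ho o')
  refine ⟨o, hm, ?_⟩
  obtain ⟨hsk, -, -, h1, -⟩ := h.pw hμ hx h0 o
  have hk2 : 0 < k ^ 2 := by positivity
  obtain ⟨ε, hp⟩ : ∃ ε, 0 < nsq (A ε o) := by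
    rcases h0 o with h2 | h2
    · exact ⟨false, by linarith⟩
    · exact ⟨true, by linarith⟩
  obtain ⟨e1, e2⟩ := side_HfB h hμ hx h0 hp
  rw [e1] at hm ⊢
  have h2 : ∀ m, ip3 (A ε o) (D ε o m) = 0 ∧ ip3 (mul3 (A ε o) (A ε o)) (D ε o m) = 0 ∧
      0 ≤ 6 * ip3 (A ε o) (mul3 (D ε o m) (D ε o m)) +
        3 * ip3 (mul3 (A ε o) (A ε o)) (D2 ε o m m) := fun m => by
    obtain ⟨c, rfl, hc⟩ := h.crv o (Pi.single m 1)
    have h3 : ∀ᶠ t in 𝓝 (0 : ℝ), 0 < nsq (A ε (c t)) :=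
      (hc.nsq1 ε 0).continuousAt.eventually (lt_mem_nhds hp)
    obtain ⟨a1, a2, a3⟩ := der_HfB hx.hs hsk (hc.nsq1 ε) (h.cub1 hc ε) (hc.nsq2 ε 0)
      (h.cub2 hc ε 0) (h3.mono fun t ht => (side_HfB h hμ hx h0 ht).1 ▸ hm (c t))
      (h3.mono fun t ht => (side_HfB h hμ hx h0 ht).2)
    exact ⟨by linarith, by linarith, a3⟩
  by_cases h7 : 6 * cub (A ε o) ^ 2 = nsq (A ε o) ^ 3
  · have h8 : (nsq (A ε o) - 6 * k ^ 2) ^ 2 * (nsq (A ε o) - 3 / 2 * k ^ 2) = 0 := by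
      rw [e2] at h7
      linear_combination -h7
    rcases mul_eq_zero.1 h8 with h9 | h9
    · exact Or.inr (Or.inl (sub_eq_zero.1 (pow_eq_zero_iff two_ne_zero |>.1 h9)))
    · exact Or.inr (Or.inr (sub_eq_zero.1 h9))
  · refine Or.inl (not_lt.1 fun hlt => ?_)
    have h3 := Finset.sum_nonneg fun m (_ : m ∈ Finset.univ) => (h2 m).2.2
    rw [Finset.sum_add_distrib, ← Finset.mul_sum, ← Finset.mul_sum, h.sum_ip,
      ip3_sq_wz (h.st ε o), add_zero3 (h.st ε o) (h.std ε o) (sg_cases ε) (h.dv ε o)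
        (Or.inl ⟨h7, fun m => ⟨(h2 m).1, (h2 m).2.1⟩⟩)] at h3
    linarith [lt_HalfB hlt (cub_sq_le (h.st ε o))]

end

end Vale.Agent.P211
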