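import Vale.Agent.P211.E.GrB

/-! P211 E/Sm (TASK, owner helper99). Helper names end with `_Sm`. The side with the smaller extremal value vanishes. Write `f ε o = qf (A ε o) (α ε o)`.
Suppose `s * k / 2 < s * f ε o`. The set `S` of points of the compact range whose `ε` component `B` satisfies `∀ a, Un a → s * k / 2 ≤ s * qf B a` is compact and contains the value at `o` (`Xt.le`); let `o₀` maximise `nsq` of the
`ε` component on it. At `o₀`, `s k / 2 ≤ s f ε o₀` and equality is excluded by `hne`, `Ext.eq`. Along `crv o₀ (Pi.single m 1)` the function `f ε (c t)` is continuous (`Crv.fderiv1`, `Ext.eq`), so `c t` stays in `S` near `0` and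
`nsq (A ε (c t))` has a local maximum: `second_le`, `nsq1`, `nsq2`, `sum_ip`, `ip3_wz` give `μ a ≤ cub` as in P211/Small. For `s = 1`: `-μ < f ≤ 0`, `a ≤ 6 f ^ 2 < 6 μ ^ 2`, `cub_le` give `a = 0`;
for `s = -1`: `0 ≤ f < 2 μ` and `cub ≤ f / 2 * a` (`Xt.char`, `Xt.bounds`) give `a = 0`. -/

namespace Vale.Agent.P211

open Filter Topology Set

noncomputable section

variable {O : Type*} {μ s k : ℝ} {A : Bool → O → M3} {D : Bool → O → Fin 4 → M3}
  {D2 : Bool → O → Fin 4 → Fin 4 → M3} {α : Bool → O → Fin 3 → ℝ} {v : Fin 4 → ℝ} {c : ℝ → O}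

theorem max_Sm (hx : Ext μ s k A α) (hK : IsCompact (range fun o => (A true o, A false o)))
    (ε : Bool) (o : O) (hlt : s * k / 2 ≤ s * qf (A ε o) (α ε o)) :
    ∃ o₀, s * k / 2 ≤ s * qf (A ε o₀) (α ε o₀) ∧
      ∀ o', s * k / 2 ≤ s * qf (A ε o') (α ε o') → nsq (A ε o') ≤ nsq (A ε o₀) := by
  let pr : M3 × M3 → M3 := fun p => cond ε p.1 p.2
  have h1 : ∀ o', pr (A true o', A false o') = A ε o' := fun o' => by cases ε <;> rfl
  have h2 : Continuous pr := by
    cases ε
    · exact continuous_snd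
    · exact continuous_fst
  have h3 : IsClosed {p : M3 × M3 | ∀ a, Un a → s * k / 2 ≤ s * qf (pr p) a} := by
    simp only [setOf_forall]
    refine isClosed_iInter fun a => isClosed_iInter fun _ => isClosed_le continuous_const ?_
    unfold qf
    fun_prop
  have h4 : ∀ o', s * k / 2 ≤ s * qf (A ε o') (α ε o') → (A true o', A false o') ∈
      (range fun o => (A true o, A false o)) ∩
        {p : M3 × M3 | ∀ a, Un a → s * k / 2 ≤ s * qf (pr p) a} := fun o' h' =>
    ⟨mem_range_self o', fun a ha => by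
      rw [h1]
      exact h'.trans ((hx.xt ε o').le a ha)⟩
  obtain ⟨p, ⟨⟨o₀, rfl⟩, h5⟩, h6⟩ := (hK.inter_right h3).exists_isMaxOn ⟨_, h4 o hlt⟩
    (continuous_nsq.comp h2).continuousOn
  refine ⟨o₀, ?_, fun o' h' => ?_⟩
  · have := h5 _ (hx.xt ε o₀).un
    rwa [h1] at this
  · have : nsq (pr (A true o', A false o')) ≤ nsq (pr (A true o₀, A false o₀)) := h6 (h4 o' h')
    rwa [h1, h1] at this

theorem cont_Sm (hx : Ext μ s k A α) (hc : Crv A D D2 v c) (ε : Bool) (t : ℝ) :
    ContinuousAt (fun u => qf (A ε (c u)) (α ε (c u))) t := by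
  have h1 := (hc.fderiv1 hx t).continuousAt
  cases ε
  · have e : (fun u => qf (A false (c u)) (α false (c u))) =
        fun u => k - qf (A true (c u)) (α true (c u)) := funext fun u => by
      linarith [hx.eq (c u)]
    rw [e]
    exact continuousAt_const.sub h1
  · exact h1

theorem Sys.smallE (h : Sys μ A D D2) (hμ : 0 < μ) (hx : Ext μ s k A α)
    (hK : IsCompact (range fun o => (A true o, A false o)))
    (hne : ∀ o, qf (A true o) (α true o) ≠ qf (A false o) (α false o)) (ε : Bool) (o : O)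
    (hlt : s * k / 2 < s * qf (A ε o) (α ε o)) : nsq (A ε o) = 0 := by
  obtain ⟨o₀, h0, hm⟩ := max_Sm hx hK ε o hlt.le
  have hs : s * k / 2 < s * qf (A ε o₀) (α ε o₀) := by
    refine lt_of_le_of_ne h0 fun e => hne o₀ ?_
    have e1 := hx.eq o₀
    rcases hx.hs with rfl | rfl <;> cases ε <;> linarith
  have h1 : ∀ m : Fin 4, ip3 (A ε o₀) (D2 ε o₀ m m) ≤ 0 := fun m => by
    obtain ⟨c, rfl, hc⟩ := h.crv o₀ (Pi.single m 1)
    have h2 := (continuousAt_const (y := s * k / 2)).eventually_lt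
      (continuousAt_const.mul (cont_Sm hx hc ε 0)) hs
    have h3 : IsLocalMax (fun s => nsq (A ε (c s))) 0 := h2.mono fun u hu => hm (c u) hu.le
    have h4 := (second_le h3 (Eventually.of_forall fun s => hc.nsq1 ε s) (hc.nsq2 ε 0)).2
    linarith [nsq_nonneg (D ε (c 0) m)]
  have h2 : ∑ m, ip3 (A ε o₀) (D2 ε o₀ m m) ≤ 0 := Finset.sum_nonpos fun m _ => h1 m
  rw [h.sum_ip, ip3_wz (h.st ε o₀)] at h2
  refine le_antisymm ((hm o hlt.le).trans (not_lt.1 fun ha => ?_)) (nsq_nonneg _)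
  obtain ⟨b1, b2, b3⟩ := (hx.xt ε o₀).bounds (h.st ε o₀) hx.hs
  have b4 := (hx.xt ε o₀).char (h.st ε o₀) hx.hs
  have b5 := cub_sq_le (h.st ε o₀)
  generalize qf (A ε o₀) (α ε o₀) = f at hs b1 b2 b3 b4
  generalize nsq (A ε o₀) = a at h2 ha b2 b3 b4 b5
  generalize cub (A ε o₀) = τ at h2 b4 b5
  rcases hx.sk with ⟨rfl, hk⟩ | ⟨rfl, hk⟩
  · have c1 : f ^ 2 < μ ^ 2 := by nlinarith
    have c2 : (μ * a) ^ 2 ≤ τ ^ 2 := pow_le_pow_left₀ (by positivity) (by linarith) 2
    have c3 : a ^ 2 * a < a ^ 2 * (6 * μ ^ 2) := mul_lt_mul_of_pos_left (by linarith) (by positivity)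
    nlinarith
  · have c1 : f * (3 / 2 * f ^ 2) ≤ f * a := mul_le_mul_of_nonneg_left b3 (by linarith)
    have c2 : a * f < a * (2 * μ) := mul_lt_mul_of_pos_left (by linarith) ha
    nlinarith

end

end Vale.Agent.P211
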