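import Vale.Agent.P211.E.Gr
import Vale.Agent.P211.E.Sm
import Vale.Agent.P211.E.Hf
import Vale.Agent.P211.E.Eig

/-! P211 E/Main (owner helper99): constant least or greatest sectional curvature, abstract form. -/

namespace Vale.Agent.P211

open Filter Topology Set

noncomputable section

variable {O : Type*} {μ s k : ℝ} {A : Bool → O → M3} {D : Bool → O → Fin 4 → M3}
  {D2 : Bool → O → Fin 4 → Fin 4 → M3} {α : Bool → O → Fin 3 → ℝ}

theorem Sys.dzero (h : Sys μ A D D2) (hμ : 0 < μ) {o : O} {ε : Bool} {a₀ : ℝ}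
    (ha : a₀ ≤ 6 * μ ^ 2) (hc : ∀ m (c : ℝ → O), c 0 = o → Crv A D D2 (Pi.single m 1) c →
      ∀ t, nsq (A ε (c t)) = a₀) (m : Fin 4) : D ε o m = 0 := by
  have key : ∀ m, 2 * nsq (D ε o m) + 2 * ip3 (A ε o) (D2 ε o m m) = 0 := fun m => by
    obtain ⟨c, hc0, hcr⟩ := h.crv o (Pi.single m 1)
    have e1 : (fun s => nsq (A ε (c s))) = fun _ => a₀ := funext (hc m c hc0 hcr)
    have e2 : (fun s => 2 * ip3 (A ε (c s)) (D ε (c s) m)) = fun _ => 0 := funext fun t => by
      have := hcr.nsq1 ε t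
      rw [e1] at this
      exact this.unique (hasDerivAt_const t a₀)
    have := hcr.nsq2 ε 0
    rw [e2, hc0] at this
    exact this.unique (hasDerivAt_const 0 0)
  have h4 : nsq (A ε o) ≤ 6 * μ ^ 2 := by
    obtain ⟨c, hc0, hcr⟩ := h.crv o (Pi.single m 1)
    have := hc m c hc0 hcr 0
    rw [hc0] at this
    linarith
  have h1 : ∑ m, nsq (D ε o m) = 6 * cub (A ε o) - 6 * μ * nsq (A ε o) := by
    have s1 := Finset.sum_congr rfl fun m (_ : m ∈ Finset.univ) => key m
    rw [Finset.sum_add_distrib, ← Finset.mul_sum, ← Finset.mul_sum, h.sum_ip, ip3_wz (h.st ε o),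
      Finset.sum_const_zero] at s1
    linarith
  have h2 := cub_le (h.st ε o)
  have hn := nsq_nonneg (A ε o)
  have h6 : (0 : ℝ) < √6 := Real.sqrt_pos.2 (by norm_num)
  have h5 : √(nsq (A ε o)) ≤ √6 * μ := by
    refine Real.sqrt_le_iff.2 ⟨by positivity, ?_⟩
    rw [mul_pow, Real.sq_sqrt (by norm_num)]
    exact h4
  have h7 : cub (A ε o) ≤ μ * nsq (A ε o) := by
    refine le_of_mul_le_mul_left ?_ h6
    have := mul_le_mul_of_nonneg_left h5 hn
    linarith
  have h8 : ∑ m, nsq (D ε o m) = 0 :=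
    le_antisymm (by linarith) (Finset.sum_nonneg fun m _ => nsq_nonneg _)
  exact eq_zero_of_nsq ((Finset.sum_eq_zero_iff_of_nonneg fun m _ => nsq_nonneg _).1 h8 m
    (Finset.mem_univ m))

theorem Sys.mainE (h : Sys μ A D D2) (hμ : 0 < μ) (hx : Ext μ s k A α)
    (hK : IsCompact (range fun o => (A true o, A false o))) {B : Type*} (base : O → B)
    (reach : ∀ o y, ∃ v c, c 0 = o ∧ Crv A D D2 v c ∧ base (c 1) = y)
    (ne : ∀ y, ∃ o, base o = y) (y : B) : ∃ o, base o = y ∧ ∀ ε m, D ε o m = 0 := by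
  by_cases h1 : ∃ o, qf (A true o) (α true o) = qf (A false o) (α false o)
  · obtain ⟨o, he⟩ := h1
    obtain ⟨v, c, hc0, hcr, hy⟩ := reach o y
    have k1 := h.gronE hμ hx hcr (by rwa [hc0]) 1
    refine ⟨c 1, hy, fun ε => h.dzero hμ (h.eqcase hμ hx k1 ε).2 fun m c' h0 hc' t => ?_⟩
    exact (h.eqcase hμ hx (h.gronE hμ hx hc' (by rwa [h0]) t) ε).1
  push Not at h1
  have h0 : ∀ o, nsq (A true o) = 0 ∨ nsq (A false o) = 0 := fun o => by
    have e := hx.eq o
    have n := h1 o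
    by_cases hlt : s * k / 2 < s * qf (A true o) (α true o)
    · exact Or.inl (h.smallE hμ hx hK h1 true o hlt)
    · refine Or.inr (h.smallE hμ hx hK h1 false o ?_)
      rcases hx.hs with rfl | rfl
      · exact lt_of_le_of_ne (by linarith) fun k => n (by linarith)
      · exact lt_of_le_of_ne (by linarith) fun k => n (by linarith)
  obtain ⟨o, ho⟩ := ne y
  have hk : k ≠ 0 := by
    rintro rfl
    have e := hx.eq o
    have b1 := ((hx.xt true o).bounds (h.st _ _) hx.hs).1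
    have b2 := ((hx.xt false o).bounds (h.st _ _) hx.hs).1
    refine h1 o ?_
    rcases hx.hs with rfl | rfl <;> linarith
  obtain ⟨a₀, hs⟩ := h.halfE hμ hx hk h0
  exact ⟨o, ho, fun ε m => h.half hμ h0 hs ε o m⟩

theorem Sys.zero_case (h : Sys μ A D D2) (hμ : 0 < μ) (hx : Ext μ 1 (-(2 * μ)) A α)
    (h0 : ∀ ε o m, D ε o m = 0) (ε : Bool) (o : O) : nsq (A ε o) = 6 * μ ^ 2 := by
  have q : ∀ ε, 6 * μ * qf (A ε o) (α ε o) - 6 * qf (A ε o) (α ε o) ^ 2 + 2 * nsq (A ε o) = 0 :=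
    fun ε => by
      rw [← (hx.xt ε o).qf_wz (h.st _ _) hx.hs μ]
      simp [qf, h.wz_eq h0]
  have z : ∀ ε, nsq (A ε o) = 0 → qf (A ε o) (α ε o) = 0 := fun ε hz => by
    have := ((hx.xt ε o).bounds (h.st _ _) hx.hs).2.2
    rw [hz] at this
    exact pow_eq_zero_iff two_ne_zero |>.1 (le_antisymm (by linarith) (sq_nonneg _))
  have n : ∀ ε, qf (A ε o) (α ε o) ≠ -(2 * μ) := fun ε he => by
    have q1 := q ε
    rw [he] at q1
    rcases h.fin h0 ε o with k | k
    · have := z ε k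
      linarith
    · rw [k] at q1
      nlinarith
  have e := hx.eq o
  refine (h.fin h0 ε o).resolve_left fun hz => ?_
  have := z ε hz
  cases ε
  · exact n true (by linarith)
  · exact n false (by linarith)

end

end Vale.Agent.P211
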