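import Vale.Agent.P211.E.Eig

/-! P211 E/Test (TASK, owner helper99). Helper names end with `_Test`. The second order test with moving directions.
Fix `o`, `m`, the curve `c = crv o (Pi.single m 1)`, `α = α true o`, `β = α false o`, vectors `a ⟂ α`, `b ⟂ β`. With `Na t = 1 + t ^ 2 |a| ^ 2 = |α + t a| ^ 2`, `Nb` likewise,
`ψ t = s * (qf (A true (c t)) (α + t a) * Nb t + qf (A false (c t)) (β + t b) * Na t - k * Na t * Nb t) ≥ 0` (`Xt.hom` at `c t` for both signs, `Ext.eq`), `ψ 0 = 0`; `second_le` for `-ψ`.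
`qf (A t) (α + t a) = qf (A t) α + 2 t B t + t ^ 2 qf (A t) a`, `B t = ∑ a i α j A t i j`, `B 0 = 0` (`Xt.eigvec`). Derivatives by `Crv.e1`, `Crv.e2`. Result (`one`):
`0 ≤ s * (qf (D2 m m) α + 4 ∑ a i (D α) i + 2 (qf A a - f |a| ^ 2) + same for the other sign)`. Then `a = -(s / Λ) r` with `r i = ∑ j, D m i j α j - qf (D m) α * α i`, `Λ = 10 μ`:
`s (qf A a - f |a| ^ 2) ≤ Λ |a| ^ 2` since `|qf A a| ≤ √nsq |a| ^ 2`, `|f| ≤ √nsq` (`qf_sq_le`), `√nsq ≤ 2 √6 μ ≤ 5 μ` (`pos`). Sum over `m`, `lap`. -/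

namespace Vale.Agent.P211

open Filter Topology Set

noncomputable section

variable {O : Type*} {μ s k : ℝ} {A : Bool → O → M3} {D : Bool → O → Fin 4 → M3}
  {D2 : Bool → O → Fin 4 → Fin 4 → M3} {α : Bool → O → Fin 3 → ℝ} {v : Fin 4 → ℝ} {c : ℝ → O}

theorem jet_Test {B B1 : ℝ → M3} {B2 : M3}
    (h1 : ∀ t i j, HasDerivAt (fun s => B s i j) (B1 t i j) t)
    (h2 : ∀ i j, HasDerivAt (fun s => B1 s i j) (B2 i j) 0) (hs : ∀ i j, B1 0 i j = B1 0 j i)
    (x a : Fin 3 → ℝ) : ∃ P1 : ℝ → ℝ,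
      (∀ t, HasDerivAt (fun t => qf (B t) fun i => x i + t * a i) (P1 t) t) ∧
      HasDerivAt P1 (qf B2 x + 4 * ∑ i, a i * ∑ j, B1 0 i j * x j + 2 * qf (B 0) a) 0 := by
  have l : ∀ t i, HasDerivAt (fun t : ℝ => x i + t * a i) (a i) t := by
    intro t i
    have := ((hasDerivAt_id t).mul_const (a i)).const_add (x i)
    rwa [one_mul] at this
  refine ⟨fun t => ∑ i, ∑ j, ((a i * (x j + t * a j) + (x i + t * a i) * a j) * B t i j +
    (x i + t * a i) * (x j + t * a j) * B1 t i j), fun t => ?_, ?_⟩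
  · unfold qf
    exact HasDerivAt.fun_sum fun i _ => HasDerivAt.fun_sum fun j _ =>
      ((l t i).fun_mul (l t j)).fun_mul (h1 t i j)
  · refine (HasDerivAt.fun_sum fun i _ => HasDerivAt.fun_sum fun j _ =>
      (((((l 0 j).const_mul (a i)).fun_add ((l 0 i).mul_const (a j))).fun_mul (h1 0 i j)).fun_add
        (((l 0 i).fun_mul (l 0 j)).fun_mul (h2 i j)))).congr_deriv ?_
    simp only [qf, Fin.sum_univ_three, zero_mul, add_zero]
    rw [hs 1 0, hs 2 0, hs 2 1]
    ring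

theorem real_Test {P P1 Q Q1 : ℝ → ℝ} {P2 Q2 na nb : ℝ} (hP : ∀ t, HasDerivAt P (P1 t) t)
    (hP2 : HasDerivAt P1 P2 0) (hQ : ∀ t, HasDerivAt Q (Q1 t) t) (hQ2 : HasDerivAt Q1 Q2 0)
    (h0 : P 0 + Q 0 = k) (h : ∀ t, 0 ≤ s * (P t * (1 + t * t * nb) + Q t * (1 + t * t * na) -
      k * ((1 + t * t * na) * (1 + t * t * nb)))) :
    0 ≤ s * (P2 - 2 * P 0 * na + (Q2 - 2 * Q 0 * nb)) := by
  have n1 : ∀ (n t : ℝ), HasDerivAt (fun t : ℝ => 1 + t * t * n) (2 * n * t) t := by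
    intro n t
    refine ((((hasDerivAt_id' t).fun_mul (hasDerivAt_id' t)).mul_const n).const_add 1).congr_deriv ?_
    ring
  have n2 : ∀ (n t : ℝ), HasDerivAt (fun t : ℝ => 2 * n * t) (2 * n) t := by
    intro n t
    have := (hasDerivAt_id' t).const_mul (2 * n)
    rwa [mul_one] at this
  have key := second_le (f := fun t => -s * (P t * (1 + t * t * nb) + Q t * (1 + t * t * na) -
      k * ((1 + t * t * na) * (1 + t * t * nb))))
    (Eventually.of_forall fun t => by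
      have := h t
      simp only [← h0] at this ⊢
      linarith)
    (Eventually.of_forall fun t =>
      (((((hP t).fun_mul (n1 nb t)).fun_add ((hQ t).fun_mul (n1 na t))).fun_sub
        (((n1 na t).fun_mul (n1 nb t)).const_mul k)).const_mul (-s)))
    (((((hP2.fun_mul (n1 nb 0)).fun_add ((hP 0).fun_mul (n2 nb 0))).fun_add
      ((hQ2.fun_mul (n1 na 0)).fun_add ((hQ 0).fun_mul (n2 na 0)))).fun_sub
        ((((n2 na 0).fun_mul (n1 nb 0)).fun_add ((n1 na 0).fun_mul (n2 nb 0))).const_mul k)).const_mul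
          (-s))
  have h2 := key.2
  rw [← h0] at h2
  linarith

theorem nrm_Test {x a : Fin 3 → ℝ} (hx : Un x) (ha : ∑ i, a i * x i = 0) (t : ℝ) :
    ∑ i, (x i + t * a i) ^ 2 = 1 + t * t * ∑ i, a i ^ 2 := by
  unfold Un at hx
  simp only [Fin.sum_univ_three] at hx ha ⊢
  linear_combination hx + 2 * t * ha

theorem Sys.one (h : Sys μ A D D2) (hx : Ext μ s k A α) (o : O) (m : Fin 4) (a : Bool → Fin 3 → ℝ)
    (ha : ∀ ε, ∑ i, a ε i * α ε o i = 0) :
    0 ≤ s * ∑ ε, (qf (D2 ε o m m) (α ε o) + 4 * ∑ i, a ε i * ∑ j, D ε o m i j * α ε o j +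
      2 * (qf (A ε o) (a ε) - qf (A ε o) (α ε o) * ∑ i, a ε i ^ 2)) := by
  obtain ⟨c, hc0, hc⟩ := h.crv o (Pi.single m 1)
  subst hc0
  have J := fun ε => jet_Test (B := fun t => A ε (c t)) (B1 := fun t => D ε (c t) m)
    (B2 := D2 ε (c 0) m m) (hc.e1 ε) (hc.e2 ε 0) (h.std ε (c 0) m).symm (α ε (c 0)) (a ε)
  obtain ⟨P1, p1, p2⟩ := J true
  obtain ⟨Q1, q1, q2⟩ := J false
  have key := real_Test (s := s) (k := k) (na := ∑ i, a true i ^ 2) (nb := ∑ i, a false i ^ 2)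
    p1 p2 q1 q2 (by simpa only [zero_mul, add_zero] using hx.eq (c 0)) fun t => by
      have a1 := (hx.xt true (c t)).hom fun i => α true (c 0) i + t * a true i
      have a2 := (hx.xt false (c t)).hom fun i => α false (c 0) i + t * a false i
      rw [nrm_Test (hx.xt true (c 0)).un (ha true)] at a1
      rw [nrm_Test (hx.xt false (c 0)).un (ha false)] at a2
      have n : ∀ ε, 0 ≤ 1 + t * t * ∑ i, a ε i ^ 2 := fun ε =>
        add_nonneg zero_le_one (mul_nonneg (mul_self_nonneg t)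
          (Finset.sum_nonneg fun i _ => sq_nonneg _))
      have a3 := mul_le_mul_of_nonneg_right a1 (n false)
      have a4 := mul_le_mul_of_nonneg_right a2 (n true)
      rw [← hx.eq (c t)]
      linarith
  simp only [zero_mul, add_zero] at key
  rw [Fintype.sum_bool]
  linarith

end

end Vale.Agent.P211
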