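import Vale.Agent.P211.E.Test

/-! P211 E/Test (TASK, owner helper99). Helper names end with `_TestB`. The second order test with moving directions.
Fix `o`, `m`, the curve `c = crv o (Pi.single m 1)`, `α = α true o`, `β = α false o`, vectors `a ⟂ α`, `b ⟂ β`. With `Na t = 1 + t ^ 2 |a| ^ 2 = |α + t a| ^ 2`, `Nb` likewise,
`ψ t = s * (qf (A true (c t)) (α + t a) * Nb t + qf (A false (c t)) (β + t b) * Na t - k * Na t * Nb t) ≥ 0` (`Xt.hom` at `c t` for both signs, `Ext.eq`), `ψ 0 = 0`; `second_le` for `-ψ`.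
`qf (A t) (α + t a) = qf (A t) α + 2 t B t + t ^ 2 qf (A t) a`, `B t = ∑ a i α j A t i j`, `B 0 = 0` (`Xt.eigvec`). Derivatives by `Crv.e1`, `Crv.e2`. Result (`one`):
`0 ≤ s * (qf (D2 m m) α + 4 ∑ a i (D α) i + 2 (qf A a - f |a| ^ 2) + same for the other sign)`. Then `a = -(s / Λ) r` with `r i = ∑ j, D m i j α j - qf (D m) α * α i`, `Λ = 10 μ`:
`s (qf A a - f |a| ^ 2) ≤ Λ |a| ^ 2` since `|qf A a| ≤ √nsq |a| ^ 2`, `|f| ≤ √nsq` (`qf_sq_le`), `√nsq ≤ 2 √6 μ ≤ 5 μ` (`pos`). Sum over `m`, `lap`. -/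

namespace Vale.Agent.P211

open Filter Topology Set

noncomputable section

variable {O : Type*} {μ s k : ℝ} {A : Bool → O → M3} {D : Bool → O → Fin 4 → M3}
  {D2 : Bool → O → Fin 4 → Fin 4 → M3} {α : Bool → O → Fin 3 → ℝ} {v : Fin 4 → ℝ} {c : ℝ → O}

theorem abs_TestB {B : M3} (hB : √(nsq B) ≤ 5 * μ) (a : Fin 3 → ℝ) :
    -(5 * μ * ∑ i, a i ^ 2) ≤ qf B a ∧ qf B a ≤ 5 * μ * ∑ i, a i ^ 2 := by
  have h0 : 0 ≤ ∑ i, a i ^ 2 := Finset.sum_nonneg fun _ _ => sq_nonneg _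
  have h1 : qf B a ^ 2 ≤ (√(nsq B) * ∑ i, a i ^ 2) ^ 2 := by
    rw [mul_pow, Real.sq_sqrt (nsq_nonneg B)]
    exact qf_sq_le B a
  have h2 := abs_le_of_sq_le_sq' h1 (mul_nonneg (Real.sqrt_nonneg _) h0)
  have h3 := mul_le_mul_of_nonneg_right hB h0
  exact ⟨by linarith [h2.1], by linarith [h2.2]⟩

theorem key_TestB {B E : M3} {β : Fin 3 → ℝ} (hμ : 0 < μ) (hs : s = 1 ∨ s = -1) (hβ : Un β)
    (hB : √(nsq B) ≤ 5 * μ) : ∃ a : Fin 3 → ℝ, ∑ i, a i * β i = 0 ∧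
      10 * μ * (s * (4 * ∑ i, a i * ∑ j, E i j * β j + 2 * (qf B a - qf B β * ∑ i, a i ^ 2))) ≤
        -2 * ∑ i, (∑ j, E i j * β j - qf E β * β i) ^ 2 := by
  obtain ⟨r, hr⟩ : ∃ r : Fin 3 → ℝ, r = fun i => ∑ j, E i j * β j - qf E β * β i := ⟨_, rfl⟩
  have hr' : ∀ i, ∑ j, E i j * β j = r i + qf E β * β i := fun i => by rw [hr, sub_add_cancel]
  have h0 : ∑ i, r i * β i = 0 := by
    have e : ∑ i, r i * β i = qf E β - qf E β * ∑ i, β i ^ 2 := by
      simp only [hr, qf, Fin.sum_univ_three]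
      ring
    rw [e, hβ, mul_one, sub_self]
  obtain ⟨x, hx⟩ : ∃ x, x = -(s / (10 * μ)) := ⟨_, rfl⟩
  have hs2 : s ^ 2 = 1 := by rcases hs with rfl | rfl <;> norm_num
  have hx1 : 10 * μ * s * x = -1 := by
    rw [hx, ← hs2]
    field_simp
  have hx2 : (10 * μ) ^ 2 * x ^ 2 = 1 := by
    rw [hx, ← hs2]
    field_simp
  refine ⟨fun i => x * r i, by simp only [mul_assoc, ← Finset.mul_sum, h0, mul_zero], ?_⟩
  have e1 : ∑ i, x * r i * ∑ j, E i j * β j = x * ∑ i, r i ^ 2 := by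
    have e : ∑ i, x * r i * ∑ j, E i j * β j =
        x * ∑ i, r i ^ 2 + x * qf E β * ∑ i, r i * β i := by
      simp only [hr', Fin.sum_univ_three]
      ring
    rw [e, h0, mul_zero, add_zero]
  have e2 : ∑ i, (x * r i) ^ 2 = x ^ 2 * ∑ i, r i ^ 2 := by
    simp only [mul_pow, ← Finset.mul_sum]
  have a1 := abs_TestB hB fun i => x * r i
  have a2 := abs_TestB hB β
  rw [hβ, mul_one] at a2
  rw [e2] at a1
  have hR : 0 ≤ x ^ 2 * ∑ i, r i ^ 2 :=
    mul_nonneg (sq_nonneg _) (Finset.sum_nonneg fun _ _ => sq_nonneg _)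
  have a3 : s * (qf B (fun i => x * r i) - qf B β * (x ^ 2 * ∑ i, r i ^ 2)) ≤
      10 * μ * (x ^ 2 * ∑ i, r i ^ 2) := by
    have b1 := mul_le_mul_of_nonneg_right a2.1 hR
    have b2 := mul_le_mul_of_nonneg_right a2.2 hR
    rcases hs with rfl | rfl <;> linarith [a1.1, a1.2]
  have a4 := mul_le_mul_of_nonneg_left a3 (by positivity : 0 ≤ 10 * μ)
  simp only [e1, e2]
  simp only [hr', add_sub_cancel_right]
  have a5 : 10 * μ * s * x * ∑ i, r i ^ 2 = -1 * ∑ i, r i ^ 2 := by rw [hx1]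
  have a6 : (10 * μ) ^ 2 * x ^ 2 * ∑ i, r i ^ 2 = 1 * ∑ i, r i ^ 2 := by rw [hx2]
  linarith

theorem Sys.test (h : Sys μ A D D2) (hμ : 0 < μ) (hx : Ext μ s k A α) (o : O) :
    2 * (rr (D true o) (α true o) + rr (D false o) (α false o)) ≤
      10 * μ * (s * (qf (wz μ (A true o)) (α true o) + qf (wz μ (A false o)) (α false o))) := by
  have h6 : √6 ≤ 5 / 2 := Real.sqrt_le_iff.2 ⟨by norm_num, by norm_num⟩
  have hB : ∀ ε, √(nsq (A ε o)) ≤ 5 * μ := by
    have h1 := h.pos o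
    have h2 := mul_le_mul_of_nonneg_right h6 hμ.le
    have h3 := Real.sqrt_nonneg (nsq (A true o))
    have h4 := Real.sqrt_nonneg (nsq (A false o))
    intro ε
    cases ε <;> linarith
  have hm : ∀ m, 2 * (∑ i, (∑ j, D true o m i j * α true o j -
        qf (D true o m) (α true o) * α true o i) ^ 2 +
      ∑ i, (∑ j, D false o m i j * α false o j - qf (D false o m) (α false o) * α false o i) ^ 2) ≤
      10 * μ * (s * (qf (D2 true o m m) (α true o) + qf (D2 false o m m) (α false o))) := by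
    intro m
    choose a ha ha' using fun ε => key_TestB (E := D ε o m) hμ hx.hs (hx.xt ε o).un (hB ε)
    have h1 := mul_nonneg (by positivity : 0 ≤ 10 * μ) (h.one hx o m a ha)
    rw [Fintype.sum_bool] at h1
    linarith [ha' true, ha' false]
  have hl : ∀ ε, qf (wz μ (A ε o)) (α ε o) = ∑ m, qf (D2 ε o m m) (α ε o) := by
    intro ε
    simp only [qf, ← h.lap, Fin.sum_univ_four, mul_add, Finset.sum_add_distrib]
  have h1 := Finset.sum_le_sum fun m (_ : m ∈ Finset.univ) => hm m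
  simp only [← Finset.mul_sum, Finset.sum_add_distrib] at h1
  rw [hl, hl]
  exact h1

end

end Vale.Agent.P211
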